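import Mathlib

/-!
# P134: the algebraic gain from rotational symmetry
-/

namespace Vale.Agent.P134

open Finset

variable {k : ℕ}

/-- The algebraic gain from `x_j ξ_i = x_i ξ_j`. -/
theorem symm_algebra (X ξ : Fin k → ℝ) (d : Fin k → Fin k → ℝ)
    (h : ∀ i j m, (if j = m then (1 : ℝ) else 0) * ξ i - (if i = m then (1 : ℝ) else 0) * ξ j
      = X i * d j m - X j * d i m) :
    ((k : ℝ) - 1) * ∑ i, ξ i ^ 2 ≤ (∑ i, X i ^ 2) * ∑ i, ∑ m, d i m ^ 2 := by
  have lhs : ∑ i, ∑ j, ∑ m, ((if j = m then (1 : ℝ) else 0) * ξ i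
      - (if i = m then (1 : ℝ) else 0) * ξ j) ^ 2 = 2 * ((k : ℝ) - 1) * ∑ i, ξ i ^ 2 := by
    have e : ∀ i j, ∑ m, ((if j = m then (1 : ℝ) else 0) * ξ i
        - (if i = m then (1 : ℝ) else 0) * ξ j) ^ 2
        = ξ i ^ 2 + ξ j ^ 2 - if i = j then 2 * ξ i * ξ j else 0 := by
      intro i j
      rw [Finset.sum_congr rfl fun m _ => show ((if j = m then (1 : ℝ) else 0) * ξ i
          - (if i = m then (1 : ℝ) else 0) * ξ j) ^ 2
          = (if j = m then ξ i ^ 2 else 0) + (if i = m then ξ j ^ 2 else 0)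
            - (if j = m then (if i = j then 2 * ξ i * ξ j else 0) else 0) by
        split_ifs <;> (try subst_vars) <;> first | (exfalso; simp_all; done) | ring1]
      simp [Finset.sum_add_distrib, Finset.sum_sub_distrib]
    simp only [e, Finset.sum_add_distrib, Finset.sum_sub_distrib, Finset.sum_ite_eq,
      Finset.mem_univ, if_true, Finset.sum_const, Finset.card_univ, Fintype.card_fin, nsmul_eq_mul,
      ← Finset.mul_sum]
    have : ∑ i, 2 * ξ i * ξ i = 2 * ∑ i, ξ i ^ 2 := by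
      rw [Finset.mul_sum]
      exact Finset.sum_congr rfl fun i _ => by ring
    rw [this]
    ring
  have rhs : ∑ i, ∑ j, ∑ m, (X i * d j m - X j * d i m) ^ 2
      = 2 * (∑ i, X i ^ 2) * (∑ i, ∑ m, d i m ^ 2) - 2 * ∑ m, (∑ i, X i * d i m) ^ 2 := by
    have e1 : ∑ i, ∑ j, ∑ m, X i ^ 2 * d j m ^ 2 = (∑ i, X i ^ 2) * ∑ i, ∑ m, d i m ^ 2 := by
      rw [Finset.sum_mul]
      simp [Finset.mul_sum]
    have e2 : ∑ i, ∑ j, ∑ m, X j ^ 2 * d i m ^ 2 = (∑ i, X i ^ 2) * ∑ i, ∑ m, d i m ^ 2 := by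
      rw [Finset.sum_comm]
      exact e1
    have e3 : ∑ i, ∑ j, ∑ m, X i * d i m * (X j * d j m) = ∑ m, (∑ i, X i * d i m) ^ 2 := by
      simp only [pow_two, Finset.sum_mul_sum]
      rw [Finset.sum_comm (s := (Finset.univ : Finset (Fin k))) (t := (Finset.univ : Finset (Fin k)))
        (f := fun m i => ∑ j, X i * d i m * (X j * d j m))]
      exact Finset.sum_congr rfl fun i _ => Finset.sum_comm
    have e : ∀ i j m, (X i * d j m - X j * d i m) ^ 2
        = X i ^ 2 * d j m ^ 2 + X j ^ 2 * d i m ^ 2 - 2 * (X i * d i m * (X j * d j m)) :=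
      fun i j m => by ring
    simp only [e, Finset.sum_add_distrib, Finset.sum_sub_distrib, ← Finset.mul_sum]
    rw [Finset.mul_sum] at *
    simp only [← Finset.mul_sum] at *
    linarith
  simp only [h] at lhs
  have := Finset.sum_nonneg fun m (_ : m ∈ (Finset.univ : Finset (Fin k))) =>
    sq_nonneg (∑ i, X i * d i m)
  nlinarith [lhs, rhs]

end Vale.Agent.P134
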