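import Mathlib

/-!
# P134: integration by parts for entire solutions of `Δ u = f (u)`

Partial derivatives, the linearised weak equation, the Picone identity and a local energy bound.
-/

namespace Vale.Agent.P134

open MeasureTheory Filter Topology Finset

/-- Euclidean space of dimension `n`. -/
abbrev Sp (n : ℕ) := EuclideanSpace ℝ (Fin n)

variable {n : ℕ}

/-- The `i`-th coordinate vector. -/
noncomputable def ev (i : Fin n) : Sp n := EuclideanSpace.single i 1

/-- The `i`-th partial derivative. -/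
noncomputable def pd (i : Fin n) (g : Sp n → ℝ) (x : Sp n) : ℝ := fderiv ℝ g x (ev i)

theorem pd_cont {g : Sp n → ℝ} (hg : ContDiff ℝ 1 g) (i : Fin n) : Continuous (pd i g) :=
  (hg.continuous_fderiv one_ne_zero).clm_apply continuous_const

theorem pd_contDiff {g : Sp n → ℝ} (hg : ContDiff ℝ 2 g) (i : Fin n) :
    ContDiff ℝ 1 (pd i g) :=
  (hg.fderiv_right (m := 1) (by norm_num)).clm_apply contDiff_const

theorem pd_mul {g h : Sp n → ℝ} (hg : Differentiable ℝ g) (hh : Differentiable ℝ h) (i : Fin n)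
    (x : Sp n) : pd i (fun y => g y * h y) x = pd i g x * h x + g x * pd i h x := by
  simp only [pd, fderiv_fun_mul (hg x) (hh x), ContinuousLinearMap.add_apply,
    ContinuousLinearMap.smul_apply, smul_eq_mul]
  ring

theorem pd_compact {g : Sp n → ℝ} (hg : HasCompactSupport g) (i : Fin n) :
    HasCompactSupport (pd i g) :=
  (hg.fderiv (𝕜 := ℝ)).comp_left (g := fun L : Sp n →L[ℝ] ℝ => L (ev i)) (by simp)

theorem pd_pd {g : Sp n → ℝ} (hg : ContDiff ℝ 2 g) (i j : Fin n) (x : Sp n) :
    pd i (pd j g) x = fderiv ℝ (fderiv ℝ g) x (ev i) (ev j) := by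
  have hd : DifferentiableAt ℝ (fderiv ℝ g) x :=
    ((hg.fderiv_right (m := 1) (by norm_num)).differentiable one_ne_zero) x
  show fderiv ℝ (fun y => fderiv ℝ g y (ev j)) x (ev i) = _
  rw [fderiv_clm_apply hd (differentiableAt_const _)]
  simp

theorem pd_comm {g : Sp n → ℝ} (hg : ContDiff ℝ 2 g) (i j : Fin n) (x : Sp n) :
    pd i (pd j g) x = pd j (pd i g) x := by
  rw [pd_pd hg, pd_pd hg]
  exact (hg.contDiffAt.isSymmSndFDerivAt (by simp)).eq _ _

theorem laplacian_eq_sum {g : Sp n → ℝ} (hg : ContDiff ℝ 2 g) (x : Sp n) :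
    Laplacian.laplacian g x = ∑ i, pd i (pd i g) x := by
  rw [InnerProductSpace.laplacian_eq_iteratedFDeriv_orthonormalBasis g
    (EuclideanSpace.basisFun (Fin n) ℝ)]
  refine Finset.sum_congr rfl fun i _ => ?_
  rw [pd_pd hg, iteratedFDeriv_two_apply]
  simp [ev]

theorem ibp {g φ : Sp n → ℝ} (hg : ContDiff ℝ 1 g) (hφ : ContDiff ℝ 1 φ)
    (hc : HasCompactSupport φ) (i : Fin n) :
    ∫ x, g x * pd i φ x = - ∫ x, pd i g x * φ x := by
  have h1 : Integrable (fun x => pd i g x * φ x) :=
    ((pd_cont hg i).mul hφ.continuous).integrable_of_hasCompactSupport hc.mul_left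
  have h2 : Integrable (fun x => g x * pd i φ x) :=
    (hg.continuous.mul (pd_cont hφ i)).integrable_of_hasCompactSupport (pd_compact hc i).mul_left
  have h3 : Integrable (fun x => g x * φ x) :=
    (hg.continuous.mul hφ.continuous).integrable_of_hasCompactSupport hc.mul_left
  exact integral_mul_fderiv_eq_neg_fderiv_mul_of_integrable h1 h2 h3
    (fun x _ => hg.differentiable one_ne_zero x) (fun x _ => hφ.differentiable one_ne_zero x)

/-- The derivative at `0` of `h ↦ ∫ G (y - h v) χ y`. -/
theorem hasDerivAt_shift {G χ : Sp n → ℝ} (hG : ContDiff ℝ 1 G) (hχ : Continuous χ)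
    (hc : HasCompactSupport χ) (l : Fin n) :
    HasDerivAt (fun h : ℝ => ∫ y, G (y - h • ev l) * χ y) (- ∫ y, pd l G y * χ y) 0 := by
  have hcont : Continuous fun p : ℝ × Sp n => pd l G (p.2 - p.1 • ev l) :=
    (pd_cont hG l).comp (by fun_prop)
  obtain ⟨C, hC⟩ := ((isCompact_closedBall (0 : ℝ) 1).prod hc.isCompact).exists_bound_of_continuousOn
    hcont.continuousOn
  have key := hasDerivAt_integral_of_dominated_loc_of_deriv_le (μ := volume)
    (F := fun h y => G (y - h • ev l) * χ y)
    (F' := fun h y => -(pd l G (y - h • ev l)) * χ y)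
    (bound := fun y => |C| * |χ y|) (x₀ := (0 : ℝ))
    (Metric.closedBall_mem_nhds 0 one_pos)
    (Eventually.of_forall fun h => ((hG.continuous.comp (by fun_prop)).mul hχ).aestronglyMeasurable)
    (((hG.continuous.comp (by fun_prop)).mul hχ).integrable_of_hasCompactSupport hc.mul_left)
    ((((pd_cont hG l).comp (by fun_prop)).neg.mul hχ).aestronglyMeasurable)
    (Eventually.of_forall fun y h hh => by
      by_cases hy : y ∈ tsupport χ
      · rw [Real.norm_eq_abs, abs_mul, abs_neg]
        exact mul_le_mul_of_nonneg_right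
          ((hC (h, y) ⟨hh, hy⟩).trans (le_abs_self C)) (abs_nonneg _)
      · rw [image_eq_zero_of_notMem_tsupport hy]
        simp)
    ((continuous_const.mul hχ.abs).integrable_of_hasCompactSupport hc.abs.mul_left)
    (Eventually.of_forall fun y h _ => by
      have h1 : HasDerivAt (fun h : ℝ => y - h • ev l) (-(ev l)) h := by
        simpa using ((hasDerivAt_id h).smul_const (ev l)).const_sub y
      have h2 := (hG.differentiable one_ne_zero (y - h • ev l)).hasFDerivAt.comp_hasDerivAt h h1
      simpa [pd] using h2.mul_const (χ y))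
  simpa [integral_neg] using key.2

/-- A `C²` solution of `Δ u = f u`. -/
structure IsSol (f : ℝ → ℝ) (u : Sp n → ℝ) : Prop where
  /-- regularity -/
  reg : ContDiff ℝ 2 u
  /-- the equation -/
  eqn : ∀ x, ∑ i, pd i (pd i u) x = f (u x)

variable {f : ℝ → ℝ} {u : Sp n → ℝ}

/-- The linearised equation for `∂_l u`, tested against a `C¹` function of compact support. -/
theorem linearized (hf : ContDiff ℝ 1 f) (hu : IsSol f u) {ψ : Sp n → ℝ}
    (hψ : ContDiff ℝ 1 ψ) (hc : HasCompactSupport ψ) (l : Fin n) :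
    ∫ x, ((∑ j, pd j (pd l u) x * pd j ψ x) + deriv f (u x) * pd l u x * ψ x) = 0 := by
  have hj : ∀ j, ContDiff ℝ 1 (pd j u) := pd_contDiff hu.reg
  have hfu : ContDiff ℝ 1 (fun x => f (u x)) := hf.comp (hu.reg.of_le (by norm_num))
  have hA : ∀ h : ℝ, ∫ y, f (u (y - h • ev l)) * ψ y
      = - ∑ j, ∫ y, pd j u (y - h • ev l) * pd j ψ y := by
    intro h
    rw [← Finset.sum_neg_distrib]
    calc ∫ y, f (u (y - h • ev l)) * ψ y
        = ∫ y, ∑ j, pd j (pd j u) (y - h • ev l) * ψ y := by
          simp only [← Finset.sum_mul, hu.eqn]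
      _ = ∑ j, ∫ y, pd j (pd j u) (y - h • ev l) * ψ y := by
          refine integral_finsetSum _ fun j _ => ?_
          exact (((pd_cont (hj j) j).comp (by fun_prop)).mul hψ.continuous)
            |>.integrable_of_hasCompactSupport hc.mul_left
      _ = _ := by
          refine Finset.sum_congr rfl fun j _ => ?_
          have hg : ContDiff ℝ 1 (fun y => pd j u (y - h • ev l)) :=
            (hj j).comp (contDiff_id.sub contDiff_const)
          rw [ibp hg hψ hc j, neg_neg]
          refine integral_congr_ae (Eventually.of_forall fun y => ?_)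
          show fderiv ℝ (pd j u) (y - h • ev l) (ev j) * ψ y
            = fderiv ℝ (fun y => pd j u (y - h • ev l)) y (ev j) * ψ y
          rw [fderiv_comp_sub]
  have d1 := hasDerivAt_shift hfu hψ.continuous hc l
  have d2 := (HasDerivAt.fun_sum (u := (Finset.univ : Finset (Fin n))) fun j _ =>
    hasDerivAt_shift (hj j) (pd_cont hψ j) (pd_compact hc j) l).neg
  have heq := d1.unique (d2.congr_of_eventuallyEq (Eventually.of_forall hA))
  have i1 : ∀ j, Integrable (fun x => pd j (pd l u) x * pd j ψ x) := fun j =>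
    ((pd_cont (hj l) j).mul (pd_cont hψ j)).integrable_of_hasCompactSupport
      (pd_compact hc j).mul_left
  have i2 : Integrable (fun x => deriv f (u x) * pd l u x * ψ x) :=
    ((((hf.continuous_deriv le_rfl).comp hu.reg.continuous).mul (hj l).continuous).mul
      hψ.continuous).integrable_of_hasCompactSupport hc.mul_left
  rw [integral_add (integrable_finsetSum _ fun j _ => i1 j) i2,
    integral_finsetSum _ fun j _ => i1 j]
  have e : ∀ x, pd l (fun y => f (u y)) x = deriv f (u x) * pd l u x := fun x => by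
    have hd := ((hf.differentiable one_ne_zero) (u x)).hasDerivAt.comp_hasFDerivAt x
      ((hu.reg.differentiable two_ne_zero) x).hasFDerivAt
    simp only [pd]
    rw [show (fun y => f (u y)) = f ∘ u from rfl, hd.fderiv]
    rfl
  simp only [e, Finset.sum_neg_distrib, neg_neg, pd_comm hu.reg l] at heq
  linarith

/-- Picone: for a solution increasing in the direction `l`, `ξ = ∂ᵢu · η` satisfies the equality
`∫ (∂ᵢu)² |∇η|² = ∫ |∇ξ - ξ ∇v / v|²` with `v = ∂ₗu`. -/
theorem picone (hf : ContDiff ℝ 1 f) (hu : IsSol f u) (l : Fin n) (hpos : ∀ x, 0 < pd l u x)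
    {η : Sp n → ℝ} (hη : ContDiff ℝ 1 η) (hc : HasCompactSupport η) (i : Fin n) :
    ∫ x, (∑ j, (pd j (fun y => pd i u y * η y) x
        - pd i u x * η x * pd j (pd l u) x / pd l u x) ^ 2)
      = ∫ x, pd i u x ^ 2 * ∑ j, pd j η x ^ 2 := by
  have hv : ContDiff ℝ 1 (pd l u) := pd_contDiff hu.reg l
  have hw : ContDiff ℝ 1 (pd i u) := pd_contDiff hu.reg i
  have hη2 : ContDiff ℝ 1 (fun y => η y * η y) := hη.mul hη
  have hψ1 : ContDiff ℝ 1 (fun y => pd i u y * (η y * η y)) := hw.mul hη2
  have hξ : ContDiff ℝ 1 (fun y => pd i u y * η y) := hw.mul hη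
  have hinv : ContDiff ℝ 1 (fun y => (pd l u y)⁻¹) := hv.inv fun y => (hpos y).ne'
  have hψ2 : ContDiff ℝ 1 (fun y => (pd i u y * η y) * (pd i u y * η y) * (pd l u y)⁻¹) :=
    (hξ.mul hξ).mul hinv
  have A := linearized hf hu hψ1 hc.mul_left.mul_left i
  have B := linearized hf hu hψ2
    ((hc.mul_left (f := pd i u)).mul_left.mul_right) l
  have dinv : ∀ j x, pd j (fun y => (pd l u y)⁻¹) x = -pd j (pd l u) x / pd l u x ^ 2 := by
    intro j x
    have hd := (hasDerivAt_inv (hpos x).ne').comp_hasFDerivAt x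
      ((hv.differentiable one_ne_zero) x).hasFDerivAt
    show fderiv ℝ ((fun t : ℝ => t⁻¹) ∘ pd l u) x (ev j)
      = -fderiv ℝ (pd l u) x (ev j) / pd l u x ^ 2
    rw [hd.fderiv]
    simp only [ContinuousLinearMap.smul_apply, smul_eq_mul]
    field_simp
  have dw := hw.differentiable one_ne_zero
  have dη := hη.differentiable one_ne_zero
  have dξ := hξ.differentiable one_ne_zero
  have e : ∀ x, (∑ j, (pd j (fun y => pd i u y * η y) x
        - pd i u x * η x * pd j (pd l u) x / pd l u x) ^ 2) - pd i u x ^ 2 * ∑ j, pd j η x ^ 2 =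
      ((∑ j, pd j (pd i u) x * pd j (fun y => pd i u y * (η y * η y)) x)
        + deriv f (u x) * pd i u x * (pd i u x * (η x * η x)))
      - ((∑ j, pd j (pd l u) x *
          pd j (fun y => (pd i u y * η y) * (pd i u y * η y) * (pd l u y)⁻¹) x)
        + deriv f (u x) * pd l u x *
          ((pd i u x * η x) * (pd i u x * η x) * (pd l u x)⁻¹)) := by
    intro x
    have hne := (hpos x).ne'
    have h0 : deriv f (u x) * pd l u x *
          ((pd i u x * η x) * (pd i u x * η x) * (pd l u x)⁻¹)
        = deriv f (u x) * pd i u x * (pd i u x * (η x * η x)) := by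
      field_simp
    rw [h0, add_sub_add_right_eq_sub, Finset.mul_sum, ← Finset.sum_sub_distrib,
      ← Finset.sum_sub_distrib]
    refine Finset.sum_congr rfl fun j _ => ?_
    rw [pd_mul dw dη, pd_mul dw (hη2.differentiable one_ne_zero), pd_mul dη dη,
      pd_mul (g := fun y => (pd i u y * η y) * (pd i u y * η y))
        ((hξ.mul hξ).differentiable one_ne_zero) (hinv.differentiable one_ne_zero),
      pd_mul dξ dξ, pd_mul dw dη, dinv]
    field_simp
    ring
  have hjc : ∀ j, Continuous (fun x => pd j (fun y => pd i u y * η y) x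
      - pd i u x * η x * pd j (pd l u) x / pd l u x) := fun j =>
    (pd_cont hξ j).sub (((hw.continuous.mul hη.continuous).mul (pd_cont hv j)).div hv.continuous
      fun x => (hpos x).ne')
  have hout : ∀ x ∉ tsupport η, η x = 0 ∧ ∀ j, pd j η x = 0 ∧
      pd j (fun y => pd i u y * η y) x = 0 := by
    intro x hx
    refine ⟨image_eq_zero_of_notMem_tsupport hx, fun j => ?_⟩
    have h0 : pd j η x = 0 := by
      rw [pd, fderiv_of_notMem_tsupport ℝ hx]
      rfl
    exact ⟨h0, by rw [pd_mul dw dη, h0, image_eq_zero_of_notMem_tsupport hx]; ring⟩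
  have I1 : Integrable (fun x => ∑ j, (pd j (fun y => pd i u y * η y) x
        - pd i u x * η x * pd j (pd l u) x / pd l u x) ^ 2) := by
    refine (continuous_finsetSum _ fun j _ => (hjc j).pow 2).integrable_of_hasCompactSupport ?_
    refine HasCompactSupport.intro hc fun x hx => ?_
    simp [(hout x hx).1, fun j => ((hout x hx).2 j).2]
  have I2 : Integrable (fun x => pd i u x ^ 2 * ∑ j, pd j η x ^ 2) := by
    refine ((hw.continuous.pow 2).mul
      (continuous_finsetSum _ fun j _ => (pd_cont hη j).pow 2)).integrable_of_hasCompactSupport ?_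
    refine HasCompactSupport.intro hc fun x hx => ?_
    simp [fun j => ((hout x hx).2 j).1]
  have J : ∀ (ψ : Sp n → ℝ) (k : Fin n), ContDiff ℝ 1 ψ → HasCompactSupport ψ →
      Integrable (fun x => (∑ j, pd j (pd k u) x * pd j ψ x)
        + deriv f (u x) * pd k u x * ψ x) := by
    intro ψ k hψ hcs
    refine (integrable_finsetSum _ fun j _ => ?_).add ?_
    · exact ((pd_cont (pd_contDiff hu.reg k) j).mul (pd_cont hψ j)).integrable_of_hasCompactSupport
        (pd_compact hcs j).mul_left
    · exact ((((hf.continuous_deriv le_rfl).comp hu.reg.continuous).mul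
        (pd_contDiff hu.reg k).continuous).mul hψ.continuous).integrable_of_hasCompactSupport
        hcs.mul_left
  have := integral_congr_ae (μ := (volume : Measure (Sp n))) (Eventually.of_forall e)
  rw [integral_sub I1 I2, integral_sub (J _ i hψ1 hc.mul_left.mul_left)
    (J _ l hψ2 ((hc.mul_left (f := pd i u)).mul_left.mul_right)), A, B] at this
  linarith

theorem energy_pointwise (hb : ∀ x, |u x| ≤ 1) {M : ℝ} (hM : ∀ x, |u x * f (u x)| ≤ M)
    {ζ : Sp n → ℝ} (dζ : Differentiable ℝ ζ) (du : Differentiable ℝ u) (x : Sp n) :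
    ζ x ^ 2 * ∑ j, pd j u x ^ 2 - (4 * (∑ j, pd j ζ x ^ 2) + 2 * M * ζ x ^ 2) ≤
      2 * ((∑ j, pd j u x * pd j (fun y => ζ y * ζ y * u y) x)
        + f (u x) * (ζ x * ζ x * u x)) := by
  have e1 : ∀ j, pd j u x * pd j (fun y => ζ y * ζ y * u y) x =
      ζ x ^ 2 * pd j u x ^ 2 + 2 * ζ x * u x * pd j ζ x * pd j u x := fun j => by
    rw [pd_mul (g := fun y => ζ y * ζ y) (dζ.mul dζ) du, pd_mul dζ dζ]
    ring
  have e2 : ∀ j, ζ x ^ 2 * pd j u x ^ 2 - 4 * pd j ζ x ^ 2
      ≤ 2 * (pd j u x * pd j (fun y => ζ y * ζ y * u y) x) := fun j => by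
    rw [e1]
    have hu1 : u x ^ 2 ≤ 1 := (sq_le_one_iff_abs_le_one _).2 (hb x)
    nlinarith [sq_nonneg (ζ x * pd j u x + 2 * u x * pd j ζ x),
      mul_le_mul_of_nonneg_right hu1 (sq_nonneg (pd j ζ x))]
  have e3 : -(M * ζ x ^ 2) ≤ f (u x) * (ζ x * ζ x * u x) := by
    have := mul_le_mul_of_nonneg_left (neg_le_of_abs_le (hM x)) (sq_nonneg (ζ x))
    linarith
  have e4 := Finset.sum_le_sum fun j (_ : j ∈ (Finset.univ : Finset (Fin n))) => e2 j
  rw [Finset.sum_sub_distrib, ← Finset.mul_sum, ← Finset.mul_sum, ← Finset.mul_sum] at e4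
  linarith

/-- The weak equation. -/
theorem weak_eqn (hu : IsSol f u) {ψ : Sp n → ℝ} (hψ : ContDiff ℝ 1 ψ)
    (hc : HasCompactSupport ψ) (hf : Continuous f) :
    Integrable (fun x => (∑ j, pd j u x * pd j ψ x) + f (u x) * ψ x) ∧
    ∫ x, ((∑ j, pd j u x * pd j ψ x) + f (u x) * ψ x) = 0 := by
  have hj : ∀ j, ContDiff ℝ 1 (pd j u) := pd_contDiff hu.reg
  have ia : ∀ j, Integrable (fun x => pd j u x * pd j ψ x) := fun j =>
    ((hj j).continuous.mul (pd_cont hψ j)).integrable_of_hasCompactSupport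
      (pd_compact hc j).mul_left
  have ib : ∀ j, Integrable (fun x => pd j (pd j u) x * ψ x) := fun j =>
    ((pd_cont (hj j) j).mul hψ.continuous).integrable_of_hasCompactSupport hc.mul_left
  have ic : Integrable (fun x => f (u x) * ψ x) :=
    ((hf.comp hu.reg.continuous).mul hψ.continuous).integrable_of_hasCompactSupport hc.mul_left
  have hb : (fun x => f (u x) * ψ x) = fun x => ∑ j, pd j (pd j u) x * ψ x := by
    funext x
    rw [← hu.eqn, Finset.sum_mul]
  refine ⟨(integrable_finsetSum _ fun j _ => ia j).add ic, ?_⟩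
  rw [integral_add (integrable_finsetSum _ fun j _ => ia j) ic, hb,
    integral_finsetSum _ fun j _ => ia j, integral_finsetSum _ fun j _ => ib j,
    ← Finset.sum_add_distrib]
  refine Finset.sum_eq_zero fun j _ => ?_
  rw [ibp (hj j) hψ hc j]
  ring

/-- Caccioppoli bound for a bounded solution. -/
theorem energy (hu : IsSol f u) (hf : Continuous f) (hb : ∀ x, |u x| ≤ 1) {M : ℝ}
    (hM : ∀ x, |u x * f (u x)| ≤ M) {ζ : Sp n → ℝ} (hζ : ContDiff ℝ 1 ζ)
    (hc : HasCompactSupport ζ) :
    ∫ x, ζ x ^ 2 * ∑ j, pd j u x ^ 2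
      ≤ ∫ x, (4 * (∑ j, pd j ζ x ^ 2) + 2 * M * ζ x ^ 2) := by
  have h1 : ContDiff ℝ 1 u := hu.reg.of_le (by norm_num)
  have hψ : ContDiff ℝ 1 (fun y => ζ y * ζ y * u y) := (hζ.mul hζ).mul h1
  obtain ⟨iF, hz⟩ := weak_eqn hu hψ hc.mul_left.mul_right hf
  have iL : Integrable (fun x => ζ x ^ 2 * ∑ j, pd j u x ^ 2) := by
    refine ((hζ.continuous.pow 2).mul
      (continuous_finsetSum _ fun j _ => (pd_cont h1 j).pow 2)).integrable_of_hasCompactSupport ?_
    refine HasCompactSupport.intro hc fun x hx => ?_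
    simp [image_eq_zero_of_notMem_tsupport hx]
  have iR : Integrable (fun x => 4 * (∑ j, pd j ζ x ^ 2) + 2 * M * ζ x ^ 2) := by
    refine ((continuous_const.mul (continuous_finsetSum _ fun j _ => (pd_cont hζ j).pow 2)).add
      (continuous_const.mul (hζ.continuous.pow 2))).integrable_of_hasCompactSupport ?_
    refine HasCompactSupport.intro hc fun x hx => ?_
    simp [image_eq_zero_of_notMem_tsupport hx, pd, fderiv_of_notMem_tsupport ℝ hx]
  have hpt := energy_pointwise (f := f) hb hM (hζ.differentiable one_ne_zero)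
    (h1.differentiable one_ne_zero)
  have h := integral_mono (iL.sub iR) (iF.const_mul 2) hpt
  simp only [Pi.sub_apply] at h
  rw [integral_sub iL iR, integral_const_mul, hz] at h
  linarith

end Vale.Agent.P134
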