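import Vale.Agent.P134.Calculus

/-!
# P134: split coordinates `x = (x', z)` on `ℝ^(k+m)`, radial profiles and box energy
-/

namespace Vale.Agent.P134

open MeasureTheory Filter Topology Finset

variable {k m : ℕ}

/-- `|x'|²`, with `x'` the first `k` coordinates. -/
noncomputable def rsq (x : Sp (k + m)) : ℝ := ∑ i : Fin k, x (Fin.castAdd m i) ^ 2

/-- `|z|²`, with `z` the last `m` coordinates. -/
noncomputable def ssq (x : Sp (k + m)) : ℝ := ∑ j : Fin m, x (Fin.natAdd k j) ^ 2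

theorem rsq_nonneg (x : Sp (k + m)) : 0 ≤ rsq x := Finset.sum_nonneg fun _ _ => sq_nonneg _

theorem ssq_nonneg (x : Sp (k + m)) : 0 ≤ ssq x := Finset.sum_nonneg fun _ _ => sq_nonneg _

theorem norm_sq_eq (x : Sp (k + m)) : ‖x‖ ^ 2 = rsq x + ssq x := by
  rw [EuclideanSpace.real_norm_sq_eq, Fin.sum_univ_add]
  rfl

theorem castAdd_ne_natAdd (i : Fin k) (j : Fin m) : Fin.castAdd m i ≠ Fin.natAdd k j := by
  intro h
  have := congrArg Fin.val h
  simp only [Fin.val_castAdd, Fin.val_natAdd] at this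
  omega

theorem coord_contDiff {n : ℕ} (a : Fin n) {N : ℕ∞} : ContDiff ℝ N (fun x : Sp n => x a) :=
  (EuclideanSpace.proj (𝕜 := ℝ) a).contDiff

theorem rsq_contDiff {N : ℕ∞} : ContDiff ℝ N (rsq (k := k) (m := m)) :=
  ContDiff.sum fun i _ => (coord_contDiff _).pow 2

theorem ssq_contDiff {N : ℕ∞} : ContDiff ℝ N (ssq (k := k) (m := m)) :=
  ContDiff.sum fun j _ => (coord_contDiff _).pow 2

theorem pd_coord {n : ℕ} (a j : Fin n) (x : Sp n) :
    pd j (fun y : Sp n => y a) x = if j = a then 1 else 0 := by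
  show fderiv ℝ (EuclideanSpace.proj (𝕜 := ℝ) a) x (ev j) = _
  rw [ContinuousLinearMap.fderiv]
  simp [ev, eq_comm]

theorem pd_sum_sq {n l : ℕ} (σ : Fin l → Fin n) (j : Fin n) (x : Sp n) :
    pd j (fun y => ∑ i, y (σ i) ^ 2) x = ∑ i, if j = σ i then 2 * x (σ i) else 0 := by
  have h := HasFDerivAt.fun_sum (u := (Finset.univ : Finset (Fin l))) fun (i : Fin l) _ =>
    ((EuclideanSpace.proj (𝕜 := ℝ) (σ i)).hasFDerivAt (x := x)).pow 2
  show fderiv ℝ (fun y : Sp n =>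
    ∑ i : Fin l, (EuclideanSpace.proj (𝕜 := ℝ) (σ i)) y ^ 2) x (ev j) = _
  rw [h.fderiv]
  simp [ev, eq_comm]

theorem pd_rsq_cast (i : Fin k) (x : Sp (k + m)) :
    pd (Fin.castAdd m i) rsq x = 2 * x (Fin.castAdd m i) := by
  show pd _ (fun y : Sp (k + m) => ∑ l, y (Fin.castAdd m l) ^ 2) x = _
  simp [pd_sum_sq]

theorem pd_rsq_nat (j : Fin m) (x : Sp (k + m)) : pd (Fin.natAdd k j) rsq x = 0 := by
  show pd _ (fun y : Sp (k + m) => ∑ l, y (Fin.castAdd m l) ^ 2) x = _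
  simp [pd_sum_sq, fun l => (castAdd_ne_natAdd l j).symm]

theorem pd_ssq_cast (i : Fin k) (x : Sp (k + m)) : pd (Fin.castAdd m i) ssq x = 0 := by
  show pd _ (fun y : Sp (k + m) => ∑ l, y (Fin.natAdd k l) ^ 2) x = _
  simp [pd_sum_sq, castAdd_ne_natAdd]

theorem pd_ssq_nat (j : Fin m) (x : Sp (k + m)) :
    pd (Fin.natAdd k j) ssq x = 2 * x (Fin.natAdd k j) := by
  show pd _ (fun y : Sp (k + m) => ∑ l, y (Fin.natAdd k l) ^ 2) x = _
  simp [pd_sum_sq]

theorem pd_comp {n : ℕ} {G : ℝ → ℝ} {q : Sp n → ℝ} {g : ℝ} {x : Sp n}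
    (hG : HasDerivAt G g (q x)) (hq : DifferentiableAt ℝ q x) (j : Fin n) :
    pd j (fun y => G (q y)) x = g * pd j q x := by
  show fderiv ℝ (G ∘ q) x (ev j) = _
  rw [(hG.comp_hasFDerivAt x hq.hasFDerivAt).fderiv]
  rfl

/-- The test function `Φ(|x'|²) G(|z|²)`. -/
noncomputable def tst (Φ G : ℝ → ℝ) (x : Sp (k + m)) : ℝ := Φ (rsq x) * G (ssq x)

theorem tst_contDiff {Φ G : ℝ → ℝ} (hΦ : ∀ r, 0 ≤ r → ContDiffAt ℝ 1 Φ r)
    (hG : ∀ r, 0 ≤ r → ContDiffAt ℝ 1 G r) : ContDiff ℝ 1 (tst (k := k) (m := m) Φ G) :=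
  contDiff_iff_contDiffAt.2 fun x =>
    (ContDiffAt.comp x (hΦ _ (rsq_nonneg x)) rsq_contDiff.contDiffAt).mul
      (ContDiffAt.comp x (hG _ (ssq_nonneg x)) ssq_contDiff.contDiffAt)

theorem pd_tst {Φ G : ℝ → ℝ} {φ g : ℝ} {x : Sp (k + m)} (hΦ : HasDerivAt Φ φ (rsq x))
    (hG : HasDerivAt G g (ssq x)) :
    (∀ i, pd (Fin.castAdd m i) (tst Φ G) x = φ * (2 * x (Fin.castAdd m i)) * G (ssq x)) ∧
      ∀ j, pd (Fin.natAdd k j) (tst Φ G) x = Φ (rsq x) * (g * (2 * x (Fin.natAdd k j))) := by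
  have hr : DifferentiableAt ℝ (rsq (k := k) (m := m)) x :=
    (rsq_contDiff (N := 1)).differentiable one_ne_zero x
  have hs : DifferentiableAt ℝ (ssq (k := k) (m := m)) x :=
    (ssq_contDiff (N := 1)).differentiable one_ne_zero x
  have e : ∀ l, pd l (tst Φ G) x = (φ * pd l rsq x) * G (ssq x) + Φ (rsq x) * (g * pd l ssq x) := by
    intro l
    rw [← pd_comp hΦ hr, ← pd_comp hG hs]
    show fderiv ℝ (fun y => Φ (rsq y) * G (ssq y)) x (ev l) = _
    have d1 : DifferentiableAt ℝ (fun y => Φ (rsq y)) x := hΦ.differentiableAt.comp x hr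
    have d2 : DifferentiableAt ℝ (fun y => G (ssq y)) x := hG.differentiableAt.comp x hs
    rw [fderiv_fun_mul d1 d2]
    simp only [pd, ContinuousLinearMap.add_apply, ContinuousLinearMap.smul_apply, smul_eq_mul]
    ring
  exact ⟨fun i => by simp [e, pd_rsq_cast, pd_ssq_cast],
    fun j => by simp [e, pd_rsq_nat, pd_ssq_nat]⟩

/-- A smooth one-variable cut-off, `1` on `[-1, 1]` and `0` outside `(-4, 4)`. -/
noncomputable def th : ContDiffBump (0 : ℝ) := ⟨1, 4, one_pos, by norm_num⟩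

theorem th_facts (t : ℝ) : 0 ≤ th t ∧ th t ≤ 1 ∧ (|t| ≤ 1 → th t = 1) ∧ (4 ≤ |t| → th t = 0) := by
  refine ⟨th.nonneg, th.le_one, fun h => th.one_of_mem_closedBall ?_, fun h => th.zero_of_le_dist ?_⟩
  · simpa [th] using h
  · simpa [th] using h

theorem th_hasDerivAt (t : ℝ) : HasDerivAt th (deriv th t) t :=
  ((th.contDiff (n := 1)).differentiable one_ne_zero t).hasDerivAt

theorem exists_th_bound : ∃ B, 0 ≤ B ∧ ∀ t, |deriv th t| ≤ B ∧
    (deriv th t ≠ 0 → 1 ≤ |t| ∧ |t| ≤ 4) := by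
  obtain ⟨B, hB⟩ := (th.hasCompactSupport.deriv (𝕜 := ℝ)).exists_bound_of_continuous
    ((th.contDiff (n := 1)).continuous_deriv le_rfl)
  refine ⟨B, (abs_nonneg _).trans (hB 0), fun t => ⟨hB t, fun hne => ⟨?_, ?_⟩⟩⟩
  · by_contra h
    push Not at h
    refine hne ?_
    have he : (th : ℝ → ℝ) =ᶠ[𝓝 t] fun _ => 1 := by
      filter_upwards [(isOpen_lt continuous_abs continuous_const).mem_nhds h] with s hs
      exact (th_facts s).2.2.1 hs.le
    rw [he.deriv_eq, deriv_const]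
  · by_contra h
    push Not at h
    refine hne ?_
    have he : (th : ℝ → ℝ) =ᶠ[𝓝 t] fun _ => 0 := by
      filter_upwards [(isOpen_lt continuous_const continuous_abs).mem_nhds h] with s hs
      exact (th_facts s).2.2.2 hs.le
    rw [he.deriv_eq, deriv_const]

/-- The cut-off at scale `S` in the variable `r = |x'|²` (or `|z|²`). -/
noncomputable def sc (S r : ℝ) : ℝ := th (r / S ^ 2)

/-- Its derivative. -/
noncomputable def sc' (S r : ℝ) : ℝ := deriv th (r / S ^ 2) / S ^ 2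

theorem sc_contDiff (S : ℝ) {N : ℕ∞} : ContDiff ℝ N (sc S) :=
  th.contDiff.comp (contDiff_id.div_const _)

theorem sc_hasDerivAt (S r : ℝ) : HasDerivAt (sc S) (sc' S r) r := by
  have := (th_hasDerivAt (r / S ^ 2)).comp r ((hasDerivAt_id r).div_const (S ^ 2))
  refine this.congr_deriv ?_
  rw [sc']
  ring

theorem sc_facts {S r : ℝ} (hS : 0 < S) (hr : 0 ≤ r) :
    0 ≤ sc S r ∧ sc S r ≤ 1 ∧ (r ≤ S ^ 2 → sc S r = 1) ∧ (4 * S ^ 2 ≤ r → sc S r = 0) := by
  have h0 : |r / S ^ 2| = r / S ^ 2 := abs_of_nonneg (by positivity)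
  obtain ⟨a, b, c, d⟩ := th_facts (r / S ^ 2)
  exact ⟨a, b, fun h => c (by rw [h0, div_le_one (by positivity)]; exact h),
    fun h => d (by rw [h0, le_div_iff₀ (by positivity)]; exact h)⟩

theorem sc'_bound {B S r : ℝ} (hS : 0 < S) (hr : 0 ≤ r)
    (hB : ∀ t, |deriv th t| ≤ B ∧ (deriv th t ≠ 0 → 1 ≤ |t| ∧ |t| ≤ 4)) :
    |sc' S r| ≤ B / S ^ 2 ∧ (sc' S r ≠ 0 → S ^ 2 ≤ r ∧ r ≤ 4 * S ^ 2) := by
  refine ⟨?_, fun h => ?_⟩
  · rw [sc', abs_div, abs_of_pos (by positivity : (0 : ℝ) < S ^ 2)]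
    exact div_le_div_of_nonneg_right (hB _).1 (by positivity)
  · have h1 := (hB (r / S ^ 2)).2 fun h0 => h (by rw [sc', h0, zero_div])
    rw [abs_of_nonneg (show 0 ≤ r / S ^ 2 by positivity), le_div_iff₀ (by positivity),
      div_le_iff₀ (by positivity), one_mul] at h1
    exact h1

theorem tst_compact {Φ G : ℝ → ℝ} {R : ℝ} (hΦ : ∀ r, R ≤ r → Φ r = 0)
    (hG : ∀ r, R ≤ r → G r = 0) : HasCompactSupport (tst (k := k) (m := m) Φ G) := by
  refine HasCompactSupport.intro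
    (isCompact_closedBall (0 : Sp (k + m)) (Real.sqrt (2 * R))) fun x hx => ?_
  simp only [mem_closedBall_zero_iff, not_le] at hx
  by_cases h1 : R ≤ rsq x
  · simp [tst, hΦ _ h1]
  · by_cases h2 : R ≤ ssq x
    · simp [tst, hG _ h2]
    · push Not at h1 h2
      exfalso
      have hR : 0 ≤ 2 * R := by linarith [rsq_nonneg x]
      have hsq := pow_lt_pow_left₀ hx (Real.sqrt_nonneg _) two_ne_zero
      rw [Real.sq_sqrt hR, norm_sq_eq] at hsq
      linarith

theorem integral_prod_coord {n : ℕ} (g : Fin n → ℝ → ℝ) :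
    ∫ x : Sp n, ∏ j, g j (x j) = ∏ j, ∫ t, g j t := by
  rw [← integral_fintype_prod_volume_eq_prod (fun j => g j)]
  exact (PiLp.volume_preserving_ofLp (Fin n)).integral_comp
    (MeasurableEquiv.toLp 2 (Fin n → ℝ)).symm.measurableEmbedding
    (fun y : Fin n → ℝ => ∏ j, g j (y j))

theorem integrable_prod_coord {n : ℕ} (g : Fin n → ℝ → ℝ) (hg : ∀ j, Integrable (g j)) :
    Integrable (fun x : Sp n => ∏ j, g j (x j)) :=
  (PiLp.volume_preserving_ofLp (Fin n)).integrable_comp_of_integrable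
    (Integrable.fintype_prod hg)

/-- The indicator of the box `|x'|² ≤ R₁²`, `|z|² ≤ R₂²`. -/
noncomputable def box (R₁ R₂ : ℝ) : Set (Sp (k + m)) :=
  {x | rsq x ≤ R₁ ^ 2 ∧ ssq x ≤ R₂ ^ 2}

theorem box_isClosed (R₁ R₂ : ℝ) : IsClosed (box (k := k) (m := m) R₁ R₂) :=
  (isClosed_le (rsq_contDiff (N := 1)).continuous continuous_const).inter
    (isClosed_le (ssq_contDiff (N := 1)).continuous continuous_const)

theorem box_isCompact (R₁ R₂ : ℝ) : IsCompact (box (k := k) (m := m) R₁ R₂) := by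
  refine (isCompact_closedBall (0 : Sp (k + m)) (|R₁| + |R₂|)).of_isClosed_subset
    (box_isClosed _ _) fun x hx => ?_
  rw [mem_closedBall_zero_iff]
  refine (sq_le_sq₀ (norm_nonneg x) (by positivity)).1 ?_
  rw [norm_sq_eq]
  nlinarith [hx.1, hx.2, sq_abs R₁, sq_abs R₂, mul_nonneg (abs_nonneg R₁) (abs_nonneg R₂)]

theorem box_volume {R₁ R₂ : ℝ} (h1 : 0 ≤ R₁) (h2 : 0 ≤ R₂) :
    ∫ x, (box (k := k) (m := m) R₁ R₂).indicator (fun _ => (1 : ℝ)) x
      ≤ (2 * R₁) ^ k * (2 * R₂) ^ m := by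
  let g : Fin (k + m) → ℝ → ℝ := Fin.addCases
    (fun _ => (Set.Icc (-R₁) R₁).indicator fun _ => 1)
    (fun _ => (Set.Icc (-R₂) R₂).indicator fun _ => 1)
  have hi : ∀ R : ℝ, Integrable ((Set.Icc (-R) R).indicator fun _ : ℝ => (1 : ℝ)) := fun R =>
    (integrable_indicator_iff measurableSet_Icc).2
      ((continuous_const : Continuous fun _ : ℝ => (1 : ℝ)).continuousOn.integrableOn_compact
        isCompact_Icc)
  have hg : ∀ j, Integrable (g j) := fun j => by
    induction j using Fin.addCases with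
    | left i => simpa [g] using hi R₁
    | right i => simpa [g] using hi R₂
  have hdom : ∀ x, (box (k := k) (m := m) R₁ R₂).indicator (fun _ => (1 : ℝ)) x
      ≤ ∏ j, g j (x j) := by
    intro x
    by_cases hx : x ∈ box R₁ R₂
    · rw [Set.indicator_of_mem hx, Fin.prod_univ_add]
      have a1 : ∀ i, x (Fin.castAdd m i) ∈ Set.Icc (-R₁) R₁ := fun i =>
        abs_le.1 (abs_le_of_sq_le_sq ((Finset.single_le_sum (f := fun i => x (Fin.castAdd m i) ^ 2)
          (fun i _ => sq_nonneg _) (Finset.mem_univ i)).trans hx.1) h1)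
      have a2 : ∀ i, x (Fin.natAdd k i) ∈ Set.Icc (-R₂) R₂ := fun i =>
        abs_le.1 (abs_le_of_sq_le_sq ((Finset.single_le_sum (f := fun i => x (Fin.natAdd k i) ^ 2)
          (fun i _ => sq_nonneg _) (Finset.mem_univ i)).trans hx.2) h2)
      simp [g, Set.indicator_of_mem (a1 _), Set.indicator_of_mem (a2 _)]
    · rw [Set.indicator_of_notMem hx]
      refine Finset.prod_nonneg fun j _ => ?_
      induction j using Fin.addCases with
      | left i => simpa [g] using Set.indicator_nonneg (fun _ _ => zero_le_one) _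
      | right i => simpa [g] using Set.indicator_nonneg (fun _ _ => zero_le_one) _
  have hb : Integrable ((box (k := k) (m := m) R₁ R₂).indicator fun _ => (1 : ℝ)) :=
    (integrable_indicator_iff (box_isClosed _ _).measurableSet).2
      ((continuous_const : Continuous fun _ : Sp (k + m) => (1 : ℝ)).continuousOn.integrableOn_compact
        (box_isCompact _ _))
  refine (integral_mono hb (integrable_prod_coord g hg) hdom).trans (le_of_eq ?_)
  rw [integral_prod_coord, Fin.prod_univ_add]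
  have hv : ∀ R : ℝ, 0 ≤ R →
      ∫ t, (Set.Icc (-R) R).indicator (fun _ => (1 : ℝ)) t = 2 * R := fun R hR => by
    rw [integral_indicator measurableSet_Icc, setIntegral_const]
    simp [Real.volume_real_Icc_of_le (show -R ≤ R by linarith)]
    ring
  simp [g, hv R₁ h1, hv R₂ h2]

theorem gradient_integrable_box {u : Sp (k + m) → ℝ} (hu : ContDiff ℝ 2 u) (R₁ R₂ : ℝ) :
    Integrable ((box R₁ R₂).indicator fun x => ∑ l, pd l u x ^ 2) :=
  (integrable_indicator_iff (box_isClosed _ _).measurableSet).2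
    ((continuous_finsetSum _ fun l _ =>
      (pd_contDiff hu l).continuous.pow 2).continuousOn.integrableOn_compact (box_isCompact _ _))

/-- The energy in a box is at most a multiple of its volume. -/
theorem box_energy {f : ℝ → ℝ} {u : Sp (k + m) → ℝ} (hu : IsSol f u) (hf : Continuous f)
    (hb : ∀ x, |u x| ≤ 1) :
    ∃ C, 0 ≤ C ∧ ∀ R₁ R₂ : ℝ, 1 ≤ R₁ → 1 ≤ R₂ →
      ∫ x, (box R₁ R₂).indicator (fun x => ∑ l, pd l u x ^ 2) x ≤ C * (R₁ ^ k * R₂ ^ m) := by
  obtain ⟨B, hB0, hB⟩ := exists_th_bound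
  obtain ⟨M, hM⟩ := (isCompact_Icc (a := (-1 : ℝ)) (b := 1)).exists_bound_of_continuousOn
    (continuous_id.mul hf).continuousOn
  have hM' : ∀ x, |u x * f (u x)| ≤ |M| := fun x =>
    (hM (u x) (abs_le.1 (hb x))).trans (le_abs_self M)
  refine ⟨(4 * (64 * B ^ 2) + 2 * |M|) * (4 ^ k * 4 ^ m), by positivity, fun R₁ R₂ h1 h2 => ?_⟩
  have p1 : 0 < R₁ := by linarith
  have p2 : 0 < R₂ := by linarith
  set ζ : Sp (k + m) → ℝ := tst (sc R₁) (sc R₂) with hζ
  have hζd : ContDiff ℝ 1 ζ :=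
    tst_contDiff (fun r _ => (sc_contDiff R₁).contDiffAt) fun r _ => (sc_contDiff R₂).contDiffAt
  have hζc : HasCompactSupport ζ := tst_compact (R := 4 * R₁ ^ 2 + 4 * R₂ ^ 2)
    (fun r hr => (sc_facts p1 (by nlinarith)).2.2.2 (by nlinarith))
    (fun r hr => (sc_facts p2 (by nlinarith)).2.2.2 (by nlinarith))
  set K := 4 * (64 * B ^ 2) + 2 * |M| with hK
  have hK0 : 0 ≤ K := by positivity
  have hpt : ∀ x, 4 * (∑ l, pd l ζ x ^ 2) + 2 * |M| * ζ x ^ 2
      ≤ (box (2 * R₁) (2 * R₂)).indicator (fun _ => K) x := by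
    intro x
    obtain ⟨hc, hn⟩ := pd_tst (sc_hasDerivAt R₁ (rsq x)) (sc_hasDerivAt R₂ (ssq x))
    obtain ⟨a0, a1, -, a3⟩ := sc_facts p1 (rsq_nonneg x)
    obtain ⟨b0, b1, -, b3⟩ := sc_facts p2 (ssq_nonneg x)
    obtain ⟨c1, c2⟩ := sc'_bound p1 (rsq_nonneg x) hB
    obtain ⟨d1, d2⟩ := sc'_bound p2 (ssq_nonneg x) hB
    have hsum : ∑ l, pd l ζ x ^ 2 = 4 * (sc' R₁ (rsq x) ^ 2 * rsq x) * sc R₂ (ssq x) ^ 2
        + 4 * (sc' R₂ (ssq x) ^ 2 * ssq x) * sc R₁ (rsq x) ^ 2 := by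
      rw [Fin.sum_univ_add]
      simp only [hc, hn, hζ, rsq, ssq, Finset.mul_sum, Finset.sum_mul]
      congr 1 <;> exact Finset.sum_congr rfl fun i _ => by ring
    by_cases hx : x ∈ box (2 * R₁) (2 * R₂)
    · rw [Set.indicator_of_mem hx]
      have e : ∀ {R r D : ℝ}, 1 ≤ R → 0 ≤ r → |D| ≤ B / R ^ 2 → r ≤ (2 * R) ^ 2 →
          D ^ 2 * r ≤ 4 * B ^ 2 := by
        intro R r D hR hr hD hr2
        have q : D ^ 2 ≤ (B / R ^ 2) ^ 2 := sq_le_sq' (abs_le.1 hD).1 (abs_le.1 hD).2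
        calc D ^ 2 * r ≤ (B / R ^ 2) ^ 2 * (2 * R) ^ 2 := mul_le_mul q hr2 hr (sq_nonneg _)
          _ = 4 * B ^ 2 / R ^ 2 := by field_simp; ring
          _ ≤ 4 * B ^ 2 := div_le_self (by positivity) (by nlinarith)
      have e1 := e h1 (rsq_nonneg x) c1 hx.1
      have e2 := e h2 (ssq_nonneg x) d1 hx.2
      have q1 : sc R₁ (rsq x) ^ 2 ≤ 1 := pow_le_one₀ a0 a1
      have q2 : sc R₂ (ssq x) ^ 2 ≤ 1 := pow_le_one₀ b0 b1
      have hz : ζ x ^ 2 ≤ 1 := by
        rw [hζ, tst, mul_pow]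
        exact mul_le_one₀ q1 (sq_nonneg _) q2
      have f1 : sc' R₁ (rsq x) ^ 2 * rsq x * sc R₂ (ssq x) ^ 2 ≤ 4 * B ^ 2 * 1 :=
        mul_le_mul e1 q2 (sq_nonneg _) (by positivity)
      have f2 : sc' R₂ (ssq x) ^ 2 * ssq x * sc R₁ (rsq x) ^ 2 ≤ 4 * B ^ 2 * 1 :=
        mul_le_mul e2 q1 (sq_nonneg _) (by positivity)
      rw [hsum, hK]
      nlinarith [mul_le_mul_of_nonneg_left hz (abs_nonneg M)]
    · rw [Set.indicator_of_notMem hx, hsum]
      simp only [box, Set.mem_ofPred_eq, not_and_or, not_le, mul_pow] at hx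
      norm_num at hx
      rcases hx with hx | hx
      · have : sc' R₁ (rsq x) = 0 := by
          by_contra h
          linarith [(c2 h).2]
        simp [this, a3 hx.le, hζ, tst]
      · have : sc' R₂ (ssq x) = 0 := by
          by_contra h
          linarith [(d2 h).2]
        simp [this, b3 hx.le, hζ, tst]
  have hB2 : Integrable ((box (k := k) (m := m) (2 * R₁) (2 * R₂)).indicator fun _ => K) :=
    (integrable_indicator_iff (box_isClosed _ _).measurableSet).2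
      ((continuous_const : Continuous fun _ : Sp (k + m) => K).continuousOn.integrableOn_compact
        (box_isCompact _ _))
  have hint : Integrable fun x => ζ x ^ 2 * ∑ l, pd l u x ^ 2 :=
    ((hζd.continuous.pow 2).mul (continuous_finsetSum _ fun l _ =>
      (pd_contDiff hu.reg l).continuous.pow 2)).integrable_of_hasCompactSupport
      (HasCompactSupport.intro hζc fun x hx => by simp [image_eq_zero_of_notMem_tsupport hx])
  have hint2 : Integrable fun x => 4 * (∑ l, pd l ζ x ^ 2) + 2 * |M| * ζ x ^ 2 :=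
    ((continuous_const.mul (continuous_finsetSum _ fun l _ => (pd_cont hζd l).pow 2)).add
      (continuous_const.mul (hζd.continuous.pow 2))).integrable_of_hasCompactSupport
      (HasCompactSupport.intro hζc fun x hx => by
        simp [image_eq_zero_of_notMem_tsupport hx, pd, fderiv_of_notMem_tsupport ℝ hx])
  calc ∫ x, (box R₁ R₂).indicator (fun x => ∑ l, pd l u x ^ 2) x
      ≤ ∫ x, ζ x ^ 2 * ∑ l, pd l u x ^ 2 := by
        refine integral_mono (gradient_integrable_box hu.reg _ _) hint fun x => ?_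
        by_cases hx : x ∈ box R₁ R₂
        · simp [Set.indicator_of_mem hx, hζ, tst, (sc_facts p1 (rsq_nonneg x)).2.2.1 hx.1,
            (sc_facts p2 (ssq_nonneg x)).2.2.1 hx.2]
        · rw [Set.indicator_of_notMem hx]
          exact mul_nonneg (sq_nonneg _) (Finset.sum_nonneg fun l _ => sq_nonneg _)
    _ ≤ _ := energy hu hf hb hM' hζd hζc
    _ ≤ ∫ x, (box (k := k) (m := m) (2 * R₁) (2 * R₂)).indicator (fun _ => K) x :=
        integral_mono hint2 hB2 hpt
    _ = K * ∫ x, (box (k := k) (m := m) (2 * R₁) (2 * R₂)).indicator (fun _ => (1 : ℝ)) x := by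
        rw [← integral_const_mul]
        refine integral_congr_ae (Eventually.of_forall fun x => ?_)
        by_cases hx : x ∈ box (k := k) (m := m) (2 * R₁) (2 * R₂) <;> simp [hx]
    _ ≤ K * ((2 * (2 * R₁)) ^ k * (2 * (2 * R₂)) ^ m) :=
        mul_le_mul_of_nonneg_left (box_volume (by linarith) (by linarith)) hK0
    _ = _ := by
        rw [hK]
        simp only [← mul_assoc]
        norm_num [mul_pow]
        ring

end Vale.Agent.P134
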