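import Vale.Agent.P134.Gain

/-!
# P134: cut-off estimates from the volume growth of boxes, and a Liouville lemma
-/

namespace Vale.Agent.P134

open MeasureTheory Filter Topology Finset

variable {k m : ℕ}

theorem W_sq (d : ℕ) {r : ℝ} (hr : 0 ≤ r) :
    W ((d : ℝ) / 2) r ^ 2 = ((Real.sqrt (1 + r)) ^ d)⁻¹ := by
  have hp : 0 < 1 + r := by linarith
  rw [W, ← Real.rpow_natCast _ 2, ← Real.rpow_mul hp.le, Real.sqrt_eq_rpow,
    ← Real.rpow_natCast _ d, ← Real.rpow_mul hp.le, ← Real.rpow_neg hp.le]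
  congr 1
  push_cast
  ring

/-- A decreasing power, dominated by a sum over dyadic scales. -/
theorem dyadic (d J : ℕ) {r : ℝ} (hr : 0 ≤ r) (hJ : r ≤ 4 ^ J) :
    ((Real.sqrt (1 + r)) ^ d)⁻¹
      ≤ 2 ^ d * ∑ j ∈ Finset.range (J + 1), if r ≤ 4 ^ j then ((2 : ℝ) ^ d)⁻¹ ^ j else 0 := by
  classical
  have hex : ∃ j, r ≤ (4 : ℝ) ^ j := ⟨J, hJ⟩
  set j := Nat.find hex with hj
  have hjr : r ≤ (4 : ℝ) ^ j := Nat.find_spec hex
  have hjJ : j ≤ J := Nat.find_min' hex hJ
  have hs := Finset.single_le_sum (f := fun j => if r ≤ (4 : ℝ) ^ j then ((2 : ℝ) ^ d)⁻¹ ^ j else 0)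
    (fun i _ => by split_ifs <;> positivity) (Finset.mem_range.2 (Nat.lt_succ_of_le hjJ))
  simp only [hjr, if_true] at hs
  refine le_trans ?_ (mul_le_mul_of_nonneg_left hs (by positivity))
  rcases Nat.eq_zero_or_pos j with h0 | h0
  · rw [h0, pow_zero, mul_one]
    exact (inv_le_one_of_one_le₀ (one_le_pow₀ (Real.one_le_sqrt.2 (by linarith)))).trans
      (one_le_pow₀ one_le_two)
  · obtain ⟨i, hi⟩ := Nat.exists_eq_succ_of_ne_zero h0.ne'
    have hlt : (4 : ℝ) ^ i < r := by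
      have := Nat.find_min hex (show i < j by omega)
      push Not at this
      exact this
    have hsq : (2 : ℝ) ^ i ≤ Real.sqrt (1 + r) := by
      rw [Real.le_sqrt (by positivity) (by linarith), ← pow_mul, mul_comm, pow_mul]
      norm_num
      linarith
    rw [hi, inv_pow, pow_succ ((2 : ℝ) ^ d), mul_inv, mul_comm, mul_assoc,
      inv_mul_cancel₀ (by positivity), mul_one, ← pow_mul, mul_comm, pow_mul]
    exact inv_anti₀ (by positivity) (pow_le_pow_left₀ (by positivity) hsq d)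

/-- The cut-off with logarithmic profile in `|z|²`. -/
noncomputable def lg (I : ℕ) (r : ℝ) : ℝ :=
  th (4 * Real.log (1 + r ^ 2) / Real.log (1 + 16 ^ I))

/-- Its derivative. -/
noncomputable def lg' (I : ℕ) (r : ℝ) : ℝ :=
  deriv th (4 * Real.log (1 + r ^ 2) / Real.log (1 + 16 ^ I))
    * (4 * (2 * r / (1 + r ^ 2)) / Real.log (1 + 16 ^ I))

theorem log_scale (I : ℕ) :
    0 < Real.log (1 + 16 ^ I) ∧ (I : ℝ) * Real.log 16 ≤ Real.log (1 + 16 ^ I) := by
  refine ⟨Real.log_pos (by linarith [pow_pos (by norm_num : (0 : ℝ) < 16) I]), ?_⟩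
  rw [← Real.log_pow]
  exact Real.log_le_log (by positivity) (by linarith)

theorem lg_hasDerivAt (I : ℕ) (r : ℝ) : HasDerivAt (lg I) (lg' I r) r := by
  have h1 : HasDerivAt (fun s : ℝ => 1 + s ^ 2) (2 * r) r := by
    simpa using (hasDerivAt_pow 2 r).const_add 1
  exact (th_hasDerivAt _).comp r
    (((h1.log (by positivity)).const_mul 4).div_const _)

theorem lg'_continuous (I : ℕ) : Continuous (lg' I) := by
  have hl : Continuous fun r : ℝ => Real.log (1 + r ^ 2) :=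
    (continuous_const.add (continuous_pow 2)).log fun r =>
      ne_of_gt (show (0 : ℝ) < 1 + r ^ 2 by positivity)
  exact (((th.contDiff (n := 1)).continuous_deriv le_rfl).comp
    ((continuous_const.mul hl).div_const _)).mul
      ((continuous_const.mul ((continuous_const.mul continuous_id).div
        (continuous_const.add (continuous_pow 2)) fun r =>
          ne_of_gt (show (0 : ℝ) < 1 + r ^ 2 by positivity))).div_const _)

theorem lg_arg_nonneg (I : ℕ) (r : ℝ) :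
    0 ≤ 4 * Real.log (1 + r ^ 2) / Real.log (1 + 16 ^ I) :=
  div_nonneg (mul_nonneg (by norm_num) (Real.log_nonneg (by nlinarith [sq_nonneg r])))
    (log_scale I).1.le

theorem lg_eq_one {I : ℕ} {r : ℝ} (hr : 1 + r ^ 2 ≤ 2 ^ I) : lg I r = 1 := by
  refine (th_facts _).2.2.1 ?_
  rw [abs_of_nonneg (lg_arg_nonneg I r), div_le_one (log_scale I).1]
  refine le_trans ?_ (log_scale I).2
  rw [show (16 : ℝ) = 2 ^ 4 by norm_num, Real.log_pow]
  have := Real.log_le_log (by positivity) hr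
  rw [Real.log_pow] at this
  push_cast
  linarith

theorem lg_eq_zero {I : ℕ} {r : ℝ} (hr : (4 : ℝ) ^ I ≤ r) : lg I r = 0 := by
  refine (th_facts _).2.2.2 ?_
  rw [abs_of_nonneg (lg_arg_nonneg I r), le_div_iff₀ (log_scale I).1]
  refine mul_le_mul_of_nonneg_left (Real.log_le_log (by positivity) ?_) (by norm_num)
  have := pow_le_pow_left₀ (by positivity) hr 2
  rw [← pow_mul, mul_comm, pow_mul] at this
  norm_num at this ⊢
  linarith

theorem lg'_support {B : ℝ}
    (hB : ∀ t, |deriv th t| ≤ B ∧ (deriv th t ≠ 0 → 1 ≤ |t| ∧ |t| ≤ 4)) {I : ℕ} {r : ℝ}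
    (_hr : 0 ≤ r) (hne : lg' I r ≠ 0) : r ≤ 4 ^ I ∧ 2 ^ I ≤ 1 + r ^ 2 := by
  have h := (hB (4 * Real.log (1 + r ^ 2) / Real.log (1 + 16 ^ I))).2 fun h0 =>
    hne (by rw [lg', h0, zero_mul])
  rw [abs_of_nonneg (lg_arg_nonneg I r), le_div_iff₀ (log_scale I).1,
    div_le_iff₀ (log_scale I).1] at h
  obtain ⟨h1, h2⟩ := h
  constructor
  · by_contra hc
    push Not at hc
    have h3 : (1 : ℝ) + 16 ^ I < 1 + r ^ 2 := by
      have := pow_lt_pow_left₀ hc (by positivity) two_ne_zero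
      rw [← pow_mul, mul_comm, pow_mul] at this
      norm_num at this ⊢
      linarith
    linarith [Real.log_lt_log (by positivity) h3]
  · by_contra hc
    push Not at hc
    have h3 := Real.log_lt_log (show (0 : ℝ) < 1 + r ^ 2 by positivity) hc
    have h4 := (log_scale I).2
    rw [show (16 : ℝ) = 2 ^ 4 by norm_num, Real.log_pow] at h4
    rw [Real.log_pow] at h3
    rw [show (16 : ℝ) = 2 ^ 4 by norm_num] at h1
    push_cast at h4
    linarith

theorem lg'_bound {B : ℝ}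
    (hB : ∀ t, |deriv th t| ≤ B ∧ (deriv th t ≠ 0 → 1 ≤ |t| ∧ |t| ≤ 4)) {I : ℕ} (hI : 1 ≤ I)
    {r : ℝ} (hr : 0 ≤ r) :
    4 * r * lg' I r ^ 2 ≤ ∑ i ∈ Finset.range (I + 1),
      if r ≤ 4 ^ i then 2048 * B ^ 2 / (I : ℝ) ^ 2 * ((4 : ℝ)⁻¹) ^ i else 0 := by
  by_cases hne : lg' I r = 0
  · rw [hne]
    simp only [ne_eq, OfNat.ofNat_ne_zero, not_false_eq_true, zero_pow, mul_zero]
    exact Finset.sum_nonneg fun i _ => by split_ifs <;> positivity
  have hd := dyadic 2 I hr (lg'_support hB hr hne).1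
  rw [Real.sq_sqrt (by linarith)] at hd
  have hI0 : (1 : ℝ) ≤ I := by exact_mod_cast hI
  have hL : (I : ℝ) ≤ Real.log (1 + 16 ^ I) := by
    refine le_trans ?_ (log_scale I).2
    refine le_mul_of_one_le_right (by linarith) ?_
    rw [Real.le_log_iff_exp_le (by norm_num)]
    linarith [Real.exp_one_lt_d9]
  set L := Real.log (1 + 16 ^ I)
  set D := deriv th (4 * Real.log (1 + r ^ 2) / L)
  have hD : D ^ 2 ≤ B ^ 2 := sq_le_sq' (abs_le.1 (hB _).1).1 (abs_le.1 (hB _).1).2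
  have key : 4 * r * lg' I r ^ 2 ≤ 512 * B ^ 2 / (I : ℝ) ^ 2 * (1 + r)⁻¹ := by
    have e : 4 * r * lg' I r ^ 2 = D ^ 2 / L ^ 2 * (256 * r ^ 3 / (1 + r ^ 2) ^ 2) := by
      show 4 * r * (D * (4 * (2 * r / (1 + r ^ 2)) / L)) ^ 2 = _
      field_simp
      ring
    have e2 : r ^ 3 / (1 + r ^ 2) ^ 2 ≤ 2 / (1 + r) := by
      rw [div_le_div_iff₀ (by positivity) (by linarith)]
      nlinarith [sq_nonneg (r ^ 2 - r), sq_nonneg r]
    rw [e]
    calc D ^ 2 / L ^ 2 * (256 * r ^ 3 / (1 + r ^ 2) ^ 2)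
        ≤ B ^ 2 / (I : ℝ) ^ 2 * (256 * (2 / (1 + r))) := by
          refine mul_le_mul ?_ ?_ (by positivity) (by positivity)
          · exact div_le_div₀ (sq_nonneg B) hD (by positivity)
              (pow_le_pow_left₀ (by linarith) hL 2)
          · rw [mul_div_assoc]
            exact mul_le_mul_of_nonneg_left e2 (by norm_num)
      _ = _ := by ring
  refine key.trans ((mul_le_mul_of_nonneg_left hd (by positivity)).trans (le_of_eq ?_))
  rw [Finset.mul_sum, Finset.mul_sum]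
  refine Finset.sum_congr rfl fun i _ => ?_
  split_ifs <;> norm_num
  ring

variable {f : ℝ → ℝ} {u : Sp (k + m) → ℝ}

/-- Bound on the error of the cut-off in `z`. -/
theorem chi_bound (hu : IsSol f u) {C : ℝ}
    (hC : ∀ R₁ R₂ : ℝ, 1 ≤ R₁ → 1 ≤ R₂ →
      ∫ x, (box R₁ R₂).indicator (fun x => ∑ l, pd l u x ^ 2) x ≤ C * (R₁ ^ k * R₂ ^ m))
    (d J N : ℕ) {e : ℕ → ℝ} (he : ∀ i, 0 ≤ e i) {H G' : ℝ → ℝ}
    (hH : ∀ r, 0 ≤ r → 0 ≤ H r ∧ H r ≤ 1 ∧ (4 ^ J < r → H r = 0))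
    (hG : ∀ r, 0 ≤ r →
      4 * r * G' r ^ 2 ≤ ∑ i ∈ Finset.range N, if r ≤ 4 ^ i then e i else 0) :
    ∫ x, (W ((d : ℝ) / 2) (rsq x) * H (rsq x)) ^ 2 * (4 * ssq x * G' (ssq x) ^ 2) * g2 u x
      ≤ 2 ^ d * C * (∑ j ∈ Finset.range (J + 1), (((2 : ℝ) ^ d)⁻¹ * 2 ^ k) ^ j)
          * (∑ i ∈ Finset.range N, e i * (2 ^ m) ^ i) := by
  classical
  set F : ℕ → ℕ → Sp (k + m) → ℝ := fun j i x => 2 ^ d * ((2 : ℝ) ^ d)⁻¹ ^ j * e i *
    (box (2 ^ j) (2 ^ i)).indicator (fun x => ∑ l, pd l u x ^ 2) x with hF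
  have hFi : ∀ j i, Integrable (F j i) := fun j i =>
    (gradient_integrable_box hu.reg _ _).const_mul _
  have hg0 : ∀ x, 0 ≤ (W ((d : ℝ) / 2) (rsq x) * H (rsq x)) ^ 2 * (4 * ssq x * G' (ssq x) ^ 2)
      * g2 u x := fun x => mul_nonneg (mul_nonneg (sq_nonneg _)
        (mul_nonneg (mul_nonneg (by norm_num) (ssq_nonneg x)) (sq_nonneg _))) (g2_nonneg x)
  have hpt : ∀ x, (W ((d : ℝ) / 2) (rsq x) * H (rsq x)) ^ 2 * (4 * ssq x * G' (ssq x) ^ 2) * g2 u x
      ≤ ∑ j ∈ Finset.range (J + 1), ∑ i ∈ Finset.range N, F j i x := by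
    intro x
    have e1 : ∑ j ∈ Finset.range (J + 1), ∑ i ∈ Finset.range N, F j i x
        = (2 ^ d * ∑ j ∈ Finset.range (J + 1),
            if rsq x ≤ 4 ^ j then ((2 : ℝ) ^ d)⁻¹ ^ j else 0)
          * (∑ i ∈ Finset.range N, if ssq x ≤ 4 ^ i then e i else 0)
          * ∑ l, pd l u x ^ 2 := by
      rw [mul_assoc, mul_assoc, Finset.sum_mul, Finset.mul_sum]
      refine Finset.sum_congr rfl fun j _ => ?_
      rw [Finset.sum_mul, Finset.mul_sum, Finset.mul_sum]
      refine Finset.sum_congr rfl fun i _ => ?_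
      have e4 : ∀ q : ℕ, ((2 : ℝ) ^ q) ^ 2 = 4 ^ q := fun q => by
        rw [← pow_mul, mul_comm, pow_mul]; norm_num
      simp only [hF, Set.indicator_apply, box, Set.mem_ofPred_eq, e4]
      split_ifs <;> first | (exfalso; tauto) | ring
    rw [e1]
    obtain ⟨a0, a1, a2⟩ := hH _ (rsq_nonneg x)
    have q0 : 0 ≤ ∑ i ∈ Finset.range N, if ssq x ≤ 4 ^ i then e i else 0 :=
      Finset.sum_nonneg fun i _ => by split_ifs <;> simp [he]
    have q2 : (0 : ℝ) ≤ 2 ^ d * ∑ j ∈ Finset.range (J + 1),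
        if rsq x ≤ 4 ^ j then ((2 : ℝ) ^ d)⁻¹ ^ j else 0 :=
      mul_nonneg (by positivity) (Finset.sum_nonneg fun i _ => by split_ifs <;> positivity)
    by_cases hr : rsq x ≤ 4 ^ J
    · refine mul_le_mul (mul_le_mul ?_ (hG _ (ssq_nonneg x)) ?_ q2) (g2_le x) (g2_nonneg x)
        (mul_nonneg q2 q0)
      · rw [mul_pow]
        refine le_trans (mul_le_of_le_one_right (sq_nonneg _) (pow_le_one₀ a0 a1)) ?_
        rw [W_sq d (rsq_nonneg x)]
        exact dyadic d J (rsq_nonneg x) hr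
      · exact mul_nonneg (mul_nonneg (by norm_num) (ssq_nonneg x)) (sq_nonneg _)
    · rw [a2 (not_le.1 hr)]
      simp only [mul_zero, ne_eq, OfNat.ofNat_ne_zero, not_false_eq_true, zero_pow, zero_mul]
      exact mul_nonneg (mul_nonneg q2 q0) (Finset.sum_nonneg fun l _ => sq_nonneg _)
  have hFsum : Integrable fun x => ∑ j ∈ Finset.range (J + 1), ∑ i ∈ Finset.range N, F j i x :=
    integrable_finsetSum _ fun j _ => integrable_finsetSum _ fun i _ => hFi j i
  refine (integral_mono_of_nonneg (Eventually.of_forall hg0) hFsum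
    (Eventually.of_forall hpt)).trans ?_
  rw [integral_finsetSum _ fun j _ => integrable_finsetSum _ fun i _ => hFi j i,
    mul_assoc ((2 : ℝ) ^ d * C), Finset.sum_mul, Finset.mul_sum]
  refine Finset.sum_le_sum fun j _ => ?_
  rw [integral_finsetSum _ fun i _ => hFi j i, Finset.mul_sum, Finset.mul_sum]
  refine Finset.sum_le_sum fun i _ => ?_
  simp only [hF, integral_const_mul]
  refine (mul_le_mul_of_nonneg_left (hC _ _ (one_le_pow₀ one_le_two) (one_le_pow₀ one_le_two))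
    (mul_nonneg (mul_nonneg (by positivity) (by positivity)) (he i))).trans (le_of_eq ?_)
  rw [← pow_mul, ← pow_mul, ← pow_mul, mul_comm j k, mul_comm i m, mul_pow, ← pow_mul 2 k j]
  ring

/-- Bound on the error of the cut-off in `x'`. -/
theorem psi_bound (hu : IsSol f u) {C : ℝ}
    (hC : ∀ R₁ R₂ : ℝ, 1 ≤ R₁ → 1 ≤ R₂ →
      ∫ x, (box R₁ R₂).indicator (fun x => ∑ l, pd l u x ^ 2) x ≤ C * (R₁ ^ k * R₂ ^ m))
    {B : ℝ} (hB : ∀ t, |deriv th t| ≤ B ∧ (deriv th t ≠ 0 → 1 ≤ |t| ∧ |t| ≤ 4))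
    (d : ℕ) (hd : d + 2 = k + m) {S T : ℝ} (hS : 1 ≤ S) (hT : 1 ≤ T) {G : ℝ → ℝ}
    (hG : ∀ r, 0 ≤ r → 0 ≤ G r ∧ G r ≤ 1 ∧ (4 * T ^ 2 < r → G r = 0)) :
    ∫ x, G (ssq x) ^ 2 * cutErr ((d : ℝ) / 2) (sc' S) (rsq x) * g2 u x
      ≤ (2 * d * B + 16 * B ^ 2) * (2 ^ k * 2 ^ m) * C * (T / S) ^ m := by
  have hS0 : 0 < S := by linarith
  have hB0 : 0 ≤ B := (abs_nonneg _).trans (hB 0).1
  set K := (2 * d * B + 16 * B ^ 2) / S ^ (d + 2) with hK
  have hK0 : 0 ≤ K := by positivity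
  have hE : ∀ r, 0 ≤ r → 0 ≤ cutErr ((d : ℝ) / 2) (sc' S) r := fun r hr =>
    mul_nonneg (sq_nonneg _) (add_nonneg (by positivity)
      (mul_nonneg (mul_nonneg (by norm_num) hr) (sq_nonneg _)))
  have hpt : ∀ x : Sp (k + m), G (ssq x) ^ 2 * cutErr ((d : ℝ) / 2) (sc' S) (rsq x) * g2 u x
      ≤ K * (box (2 * S) (2 * T)).indicator (fun x => ∑ l, pd l u x ^ 2) x := by
    intro x
    have hr0 := rsq_nonneg x
    have h0 : 0 ≤ K * (box (2 * S) (2 * T)).indicator (fun x => ∑ l, pd l u x ^ 2) x :=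
      mul_nonneg hK0 (Set.indicator_nonneg (fun y _ => Finset.sum_nonneg fun l _ => sq_nonneg _) x)
    obtain ⟨g0, g1, g3⟩ := hG _ (ssq_nonneg x)
    obtain ⟨c1, c2⟩ := sc'_bound hS0 hr0 hB
    by_cases hne : sc' S (rsq x) = 0
    · simpa [cutErr, hne] using h0
    by_cases hs : 4 * T ^ 2 < ssq x
    · simpa [g3 hs] using h0
    obtain ⟨r1, r2'⟩ := c2 hne
    push Not at hs
    have hx : x ∈ box (2 * S) (2 * T) :=
      ⟨show rsq x ≤ (2 * S) ^ 2 by rw [mul_pow]; norm_num; exact r2',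
        show ssq x ≤ (2 * T) ^ 2 by rw [mul_pow]; norm_num; exact hs⟩
    rw [Set.indicator_of_mem hx]
    refine mul_le_mul ?_ (g2_le x) (g2_nonneg x) hK0
    refine (mul_le_of_le_one_left (hE _ hr0) (pow_le_one₀ g0 g1)).trans ?_
    have hW : W ((d : ℝ) / 2) (rsq x) ^ 2 ≤ (S ^ d)⁻¹ := by
      rw [W_sq d hr0]
      exact inv_anti₀ (by positivity) (pow_le_pow_left₀ hS0.le
        ((Real.le_sqrt hS0.le (by linarith)).2 (by linarith)) d)
    have hb1 : 4 * |(d : ℝ) / 2| * |sc' S (rsq x)| ≤ 2 * d * B / S ^ 2 := by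
      rw [abs_of_nonneg (by positivity : (0 : ℝ) ≤ (d : ℝ) / 2), mul_div_assoc (2 * (d : ℝ))]
      exact le_trans (le_of_eq (by ring)) (mul_le_mul_of_nonneg_left c1 (by positivity))
    have hb2 : 4 * rsq x * sc' S (rsq x) ^ 2 ≤ 16 * B ^ 2 / S ^ 2 := by
      calc 4 * rsq x * sc' S (rsq x) ^ 2 ≤ 4 * (4 * S ^ 2) * (B / S ^ 2) ^ 2 :=
            mul_le_mul (by linarith) (sq_le_sq' (abs_le.1 c1).1 (abs_le.1 c1).2) (sq_nonneg _)
              (by positivity)
        _ = _ := by field_simp; ring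
    calc cutErr ((d : ℝ) / 2) (sc' S) (rsq x)
        ≤ (S ^ d)⁻¹ * (2 * d * B / S ^ 2 + 16 * B ^ 2 / S ^ 2) :=
          mul_le_mul hW (add_le_add hb1 hb2) (add_nonneg (by positivity)
            (mul_nonneg (mul_nonneg (by norm_num) hr0) (sq_nonneg _))) (by positivity)
      _ = K := by rw [hK, pow_add]; field_simp
  refine (integral_mono_of_nonneg (Eventually.of_forall fun x => mul_nonneg
    (mul_nonneg (sq_nonneg _) (hE _ (rsq_nonneg x))) (g2_nonneg x))
    ((gradient_integrable_box hu.reg _ _).const_mul K) (Eventually.of_forall hpt)).trans ?_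
  rw [integral_const_mul]
  refine (mul_le_mul_of_nonneg_left (hC _ _ (by linarith) (by linarith)) hK0).trans (le_of_eq ?_)
  rw [hK, hd, pow_add S k m, mul_pow, mul_pow, div_pow]
  field_simp

theorem eq_zero_of_small {n : ℕ} {Q : Sp n → ℝ} (hQc : Continuous Q) (hQ0 : ∀ x, 0 ≤ Q x)
    (h : ∀ R, ∫ x, (Metric.closedBall 0 R).indicator Q x ≤ 0) (x : Sp n) : Q x = 0 := by
  let b : ContDiffBump (0 : Sp n) :=
    ⟨‖x‖ + 1, ‖x‖ + 2, by linarith [norm_nonneg x], by linarith⟩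
  set q := fun y => b y * Q y with hq
  have hqc : Continuous q := b.continuous.mul hQc
  have hqs : HasCompactSupport q := b.hasCompactSupport.mul_right
  by_contra hne
  have hqx : q x ≠ 0 := by
    simp only [hq, b.one_of_mem_closedBall (by simp [b] : x ∈ Metric.closedBall (0 : Sp n) b.rIn),
      one_mul]
    exact hne
  have h1 := hqc.integral_pos_of_hasCompactSupport_nonneg_nonzero (μ := volume) hqs
    (fun y => mul_nonneg b.nonneg (hQ0 y)) hqx
  have h2 : ∫ y, q y ≤ ∫ y, (Metric.closedBall 0 (‖x‖ + 2)).indicator Q y := by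
    refine integral_mono (hqc.integrable_of_hasCompactSupport hqs)
      ((hQc.continuousOn.integrableOn_compact (isCompact_closedBall _ _)).integrable_indicator
        measurableSet_closedBall) fun y => ?_
    by_cases hy : y ∈ Metric.closedBall (0 : Sp n) (‖x‖ + 2)
    · rw [Set.indicator_of_mem hy]
      exact mul_le_of_le_one_left (hQ0 y) b.le_one
    · rw [Set.indicator_of_notMem hy, show q y = 0 from by
        simp [hq, b.zero_of_le_dist (x := y) (le_of_lt (by simpa [b] using hy))]]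
  linarith [h (‖x‖ + 2)]

/-- A density with a self-improving bound vanishes. -/
theorem vanish {n : ℕ} {Q : Sp n → ℝ} (hQc : Continuous Q) (hQ0 : ∀ x, 0 ≤ Q x)
    (F : ℕ → ℕ → Sp n → ℝ) (A : ℕ → ℝ) (hA : Tendsto A atTop atTop)
    (hF : ∀ p I x, 1 ≤ I → 0 ≤ F p I x ∧ F p I x ≤ 1 ∧ (‖x‖ ≤ A I → F p I x = 1))
    (hFs : ∀ p I, ∃ R, ∀ x, R < ‖x‖ → F p I x = 0)
    (hFi : ∀ p I, 1 ≤ I → Integrable fun x => F p I x * Q x)
    (ε C : ℕ → ℝ) (hε : Tendsto ε atTop (𝓝 0))
    (h : ∀ p I, 1 ≤ I → ∀ c : ℝ, 0 < c → ∫ x, F p I x * Q x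
      ≤ ε p + c⁻¹ * C p + c * ∫ x, {y | A I ≤ ‖y‖}.indicator (fun y => F p I y * Q y) x)
    (x : Sp n) : Q x = 0 := by
  set J := fun R : ℝ => ∫ x, (Metric.closedBall 0 R).indicator Q x with hJ
  have iJ : ∀ R, Integrable ((Metric.closedBall (0 : Sp n) R).indicator Q) := fun R =>
    (hQc.continuousOn.integrableOn_compact (isCompact_closedBall _ _)).integrable_indicator
      measurableSet_closedBall
  have hmono : Monotone J := fun a b hab => integral_mono (iJ a) (iJ b) fun y =>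
    Set.indicator_le_indicator_of_subset (Metric.closedBall_subset_closedBall hab) hQ0 y
  have hlow : ∀ p I, 1 ≤ I → J (A I) ≤ ∫ x, F p I x * Q x := by
    intro p I hI
    refine integral_mono (iJ _) (hFi p I hI) fun y => ?_
    by_cases hy : y ∈ Metric.closedBall (0 : Sp n) (A I)
    · rw [Set.indicator_of_mem hy, (hF p I y hI).2.2 (mem_closedBall_zero_iff.1 hy), one_mul]
    · rw [Set.indicator_of_notMem hy]
      exact mul_nonneg (hF p I y hI).1 (hQ0 y)
  have iA : ∀ p I, 1 ≤ I →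
      Integrable ({y | A I ≤ ‖y‖}.indicator fun y => F p I y * Q y) := fun p I hI =>
    (hFi p I hI).indicator (isClosed_le continuous_const continuous_norm).measurableSet
  have hbd : ∀ I, 1 ≤ I → J (A I) ≤ 2 * ε 0 + 4 * C 0 := by
    intro I hI
    have h1 := h 0 I hI (1 / 2) (by norm_num)
    have h2 : ∫ x, {y | A I ≤ ‖y‖}.indicator (fun y => F 0 I y * Q y) x ≤ ∫ x, F 0 I x * Q x :=
      integral_mono (iA 0 I hI) (hFi 0 I hI) fun y =>
        Set.indicator_le_self' (fun z _ => mul_nonneg (hF 0 I z hI).1 (hQ0 z)) y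
    norm_num at h1
    linarith [hlow 0 I hI]
  have hbdd : BddAbove (Set.range J) := by
    refine ⟨2 * ε 0 + 4 * C 0, ?_⟩
    rintro _ ⟨R, rfl⟩
    obtain ⟨I, h1, h2⟩ := ((hA.eventually_ge_atTop R).and (eventually_ge_atTop 1)).exists
    exact (hmono h1).trans (hbd I h2)
  set L := ⨆ R, J R with hL
  have hlim : Tendsto J atTop (𝓝 L) := tendsto_atTop_ciSup hmono hbdd
  have hupper : ∀ p, ∀ c : ℝ, 0 < c → L ≤ ε p + c⁻¹ * C p := by
    intro p c hc
    have t1 : Tendsto (fun I => J (A I)) atTop (𝓝 L) := hlim.comp hA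
    have t2 : Tendsto (fun I => ε p + c⁻¹ * C p + c * (L - J (A I / 2))) atTop
        (𝓝 (ε p + c⁻¹ * C p)) := by
      have := (((hlim.comp (hA.atTop_div_const two_pos)).const_sub L).const_mul c).const_add
        (ε p + c⁻¹ * C p)
      simpa using this
    refine le_of_tendsto_of_tendsto t1 t2 ?_
    filter_upwards [hA.eventually_gt_atTop 0, eventually_ge_atTop 1] with I hAI hI
    refine (hlow p I hI).trans ((h p I hI c hc).trans ?_)
    refine add_le_add le_rfl (mul_le_mul_of_nonneg_left ?_ hc.le)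
    obtain ⟨R, hR⟩ := hFs p I
    have h4 : J (max R (A I)) ≤ L := le_ciSup hbdd _
    have h5 : (∫ x, {y | A I ≤ ‖y‖}.indicator (fun y => F p I y * Q y) x) + J (A I / 2)
        ≤ J (max R (A I)) := by
      rw [hJ, ← integral_add (iA p I hI) (iJ _)]
      refine integral_mono ((iA p I hI).add (iJ _)) (iJ _) fun y => ?_
      simp only [Pi.add_apply]
      have hm0 : 0 ≤ (Metric.closedBall (0 : Sp n) (max R (A I))).indicator Q y :=
        Set.indicator_nonneg (fun z _ => hQ0 z) y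
      by_cases h1 : A I ≤ ‖y‖
      · rw [Set.indicator_of_mem (show y ∈ {z : Sp n | A I ≤ ‖z‖} from h1),
          Set.indicator_of_notMem (fun hm => by
            rw [mem_closedBall_zero_iff] at hm; linarith), add_zero]
        by_cases hy : R < ‖y‖
        · rw [hR y hy, zero_mul]
          exact hm0
        · rw [Set.indicator_of_mem (mem_closedBall_zero_iff.2 ((not_lt.1 hy).trans (le_max_left _ _)))]
          exact mul_le_of_le_one_left (hQ0 y) (hF p I y hI).2.1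
      · rw [Set.indicator_of_notMem (show y ∉ {z : Sp n | A I ≤ ‖z‖} from h1), zero_add]
        exact Set.indicator_le_indicator_of_subset
          (Metric.closedBall_subset_closedBall ((by linarith : A I / 2 ≤ A I).trans (le_max_right _ _)))
          hQ0 y
    linarith
  have hL0 : L ≤ 0 := by
    have hp : ∀ p, L ≤ ε p := fun p => by
      refine ge_of_tendsto (x := (atTop : Filter ℝ)) (f := fun c : ℝ => ε p + c⁻¹ * C p) ?_ ?_
      · simpa using ((tendsto_inv_atTop_zero (𝕜 := ℝ)).mul_const (C p)).const_add (ε p)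
      · exact (eventually_gt_atTop 0).mono fun c hc => hupper p c hc
    exact ge_of_tendsto' hε hp
  exact eq_zero_of_small hQc hQ0 (fun R => (le_ciSup hbdd R).trans hL0) x

end Vale.Agent.P134
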