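import Vale.Agent.P134.Coord
import Vale.Agent.P134.Algebra

/-!
# P134: the stability inequality for solutions invariant under rotations of `x'`
-/

namespace Vale.Agent.P134

open MeasureTheory Filter Topology Finset

variable {k m : ℕ}

/-- `|∇'u|²`. -/
noncomputable def g2 (u : Sp (k + m) → ℝ) (x : Sp (k + m)) : ℝ :=
  ∑ i : Fin k, pd (Fin.castAdd m i) u x ^ 2

/-- `v ∂_{z_j} (∂_i u / v)`, with `v = ∂_l u`. -/
noncomputable def dz (u : Sp (k + m) → ℝ) (l : Fin (k + m)) (i : Fin k) (j : Fin m)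
    (x : Sp (k + m)) : ℝ :=
  pd (Fin.natAdd k j) (pd (Fin.castAdd m i) u) x
    - pd (Fin.castAdd m i) u x * pd (Fin.natAdd k j) (pd l u) x / pd l u x

/-- The weight `(1 + r)^(-a/2)`. -/
noncomputable def W (a r : ℝ) : ℝ := (1 + r) ^ (-a / 2)

theorem W_hasDerivAt (a : ℝ) {r : ℝ} (hr : 0 ≤ r) :
    HasDerivAt (W a) (-a / 2 * (W a r / (1 + r))) r := by
  have hp : 0 < 1 + r := by linarith
  have := ((hasDerivAt_id r).const_add 1).rpow_const (p := -a / 2) (Or.inl hp.ne')
  refine this.congr_deriv ?_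
  simp only [W, Real.rpow_sub hp, Real.rpow_one, id_eq]
  ring

theorem W_contDiffAt (a : ℝ) {r : ℝ} (hr : 0 ≤ r) : ContDiffAt ℝ 1 (W a) r := by
  refine (contDiffAt_const.add contDiffAt_id).rpow_const_of_ne ?_
  simp only [id_eq]
  linarith

/-- The nonnegative density that the stability inequality controls. -/
noncomputable def Qd (u : Sp (k + m) → ℝ) (l : Fin (k + m)) (a : ℝ) (x : Sp (k + m)) : ℝ :=
  W a (rsq x) ^ 2 *
    (((k : ℝ) - 1) * g2 u x / (1 + rsq x) ^ 2 + ∑ i, ∑ j, dz u l i j x ^ 2)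

/-- The error from a cut-off `H` in `|x'|²`. -/
noncomputable def cutErr (a : ℝ) (H' : ℝ → ℝ) (r : ℝ) : ℝ :=
  W a r ^ 2 * (4 * |a| * |H' r| + 4 * r * H' r ^ 2)

variable {f : ℝ → ℝ} {u : Sp (k + m) → ℝ} {l : Fin (k + m)}

theorem g2_nonneg (x : Sp (k + m)) : 0 ≤ g2 u x := Finset.sum_nonneg fun _ _ => sq_nonneg _

theorem g2_le (x : Sp (k + m)) : g2 u x ≤ ∑ j, pd j u x ^ 2 := by
  rw [Fin.sum_univ_add]
  exact le_add_of_nonneg_right (Finset.sum_nonneg fun _ _ => sq_nonneg _)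

theorem g2_continuous (hu : ContDiff ℝ 2 u) : Continuous (g2 u) :=
  continuous_finsetSum _ fun _ _ => (pd_contDiff hu _).continuous.pow 2

theorem Qd_nonneg (hk : 1 ≤ k) (a : ℝ) (x : Sp (k + m)) : 0 ≤ Qd u l a x := by
  have h1 : (0 : ℝ) ≤ (k : ℝ) - 1 := by
    have : (1 : ℝ) ≤ k := by exact_mod_cast hk
    linarith
  exact mul_nonneg (sq_nonneg _) (add_nonneg
    (div_nonneg (mul_nonneg h1 (g2_nonneg x)) (sq_nonneg _))
    (Finset.sum_nonneg fun _ _ => Finset.sum_nonneg fun _ _ => sq_nonneg _))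

theorem W_continuous (a : ℝ) : Continuous fun x : Sp (k + m) => W a (rsq x) :=
  continuous_iff_continuousAt.2 fun x =>
    ContinuousAt.comp (W_contDiffAt a (rsq_nonneg x)).continuousAt
      (rsq_contDiff (N := 1)).continuous.continuousAt

theorem Qd_continuous (hu : ContDiff ℝ 2 u) (hpos : ∀ x, 0 < pd l u x) (a : ℝ) :
    Continuous (Qd u l a) :=
  ((W_continuous a).pow 2).mul
    (((continuous_const.mul (g2_continuous hu)).div
      ((continuous_const.add (rsq_contDiff (N := 1)).continuous).pow 2)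
      fun x => pow_ne_zero _ (ne_of_gt (show (0 : ℝ) < 1 + rsq x by linarith [rsq_nonneg x]))).add
      (continuous_finsetSum _ fun _ _ => continuous_finsetSum _ fun _ _ =>
        ((pd_cont (pd_contDiff hu _) _).sub (((pd_contDiff hu _).continuous.mul
          (pd_cont (pd_contDiff hu l) _)).div (pd_contDiff hu l).continuous
            fun x => (hpos x).ne')).pow 2))

theorem gain_cast (hu : IsSol f u) {η : Sp (k + m) → ℝ} (hη : ContDiff ℝ 1 η)
    (hS : ∀ x (i j : Fin k), x (Fin.castAdd m i) * pd (Fin.castAdd m j) u x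
      = x (Fin.castAdd m j) * pd (Fin.castAdd m i) u x)
    (x : Sp (k + m)) :
    ((k : ℝ) - 1) * (η x ^ 2 * g2 u x / (1 + rsq x))
      ≤ ∑ i : Fin k, ∑ j : Fin k,
          (pd (Fin.castAdd m j) (fun y => pd (Fin.castAdd m i) u y * η y) x
            - pd (Fin.castAdd m i) u x * η x * pd (Fin.castAdd m j) (pd l u) x / pd l u x) ^ 2 := by
  set ξ : Fin k → Sp (k + m) → ℝ := fun i y => pd (Fin.castAdd m i) u y * η y with hξ
  set v := pd l u with hv
  set d : Fin k → Fin k → ℝ := fun i j =>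
    pd (Fin.castAdd m j) (ξ i) x - ξ i x * pd (Fin.castAdd m j) v x / v x with hd
  have hξd : ∀ i, Differentiable ℝ (ξ i) := fun i =>
    ((pd_contDiff hu.reg _).mul hη).differentiable one_ne_zero
  have hcd : ∀ i : Fin k, Differentiable ℝ fun y : Sp (k + m) => y (Fin.castAdd m i) := fun i =>
    (coord_contDiff (N := 1) _).differentiable (by norm_num)
  have hid : ∀ i j q, (if j = q then (1 : ℝ) else 0) * ξ i x
      - (if i = q then (1 : ℝ) else 0) * ξ j x
      = x (Fin.castAdd m i) * d j q - x (Fin.castAdd m j) * d i q := by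
    intro i j q
    have hfun : (fun y : Sp (k + m) => y (Fin.castAdd m j) * ξ i y)
        = fun y => y (Fin.castAdd m i) * ξ j y := funext fun y => by
      simp only [hξ, ← mul_assoc, hS y i j]
    have h0 : x (Fin.castAdd m j) * ξ i x = x (Fin.castAdd m i) * ξ j x := congrFun hfun x
    have h1 := congrArg (fun g => pd (Fin.castAdd m q) g x) hfun
    simp only [pd_mul (hcd _) (hξd _), pd_coord, (Fin.castAdd_injective k m).eq_iff,
      eq_comm (a := q)] at h1
    simp only [hd]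
    linear_combination h1 + (pd (Fin.castAdd m q) v x / v x) * (-h0)
  have key := symm_algebra (fun i : Fin k => x (Fin.castAdd m i)) (fun i => ξ i x) d hid
  have hsum : ∑ i, ξ i x ^ 2 = η x ^ 2 * g2 u x := by
    simp only [hξ, g2, Finset.mul_sum]
    exact Finset.sum_congr rfl fun i _ => by ring
  rw [hsum] at key
  show _ ≤ ∑ i, ∑ j, d i j ^ 2
  rw [mul_div_assoc', div_le_iff₀ (by linarith [rsq_nonneg x])]
  have hr : ∑ i : Fin k, x (Fin.castAdd m i) ^ 2 = rsq x := rfl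
  rw [hr] at key
  have := Finset.sum_nonneg fun i (_ : i ∈ (Finset.univ : Finset (Fin k))) =>
    Finset.sum_nonneg fun j (_ : j ∈ (Finset.univ : Finset (Fin k))) => sq_nonneg (d i j)
  nlinarith

/-- The scalar gain for `Φ = W H`. -/
theorem scalar_gain {a r K H H' : ℝ} (hr : 0 ≤ r) (ha : a ^ 2 ≤ K) (hH0 : 0 ≤ H) (hH1 : H ≤ 1) :
    4 * r * (-a / 2 * (W a r / (1 + r)) * H + W a r * H') ^ 2
      ≤ K * ((W a r * H) ^ 2 / (1 + r)) - K * ((W a r * H) ^ 2 / (1 + r) ^ 2)
        + W a r ^ 2 * (4 * |a| * |H'| + 4 * r * H' ^ 2) := by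
  have hp : 0 < 1 + r := by linarith
  set w := W a r
  have e : 4 * r * (-a / 2 * (w / (1 + r)) * H + w * H') ^ 2
      = a ^ 2 * (r * (w * H) ^ 2 / (1 + r) ^ 2) - 4 * a * (r / (1 + r)) * H * H' * w ^ 2
        + 4 * r * H' ^ 2 * w ^ 2 := by
    field_simp
    ring
  have e2 : K * ((w * H) ^ 2 / (1 + r)) - K * ((w * H) ^ 2 / (1 + r) ^ 2)
      = K * (r * (w * H) ^ 2 / (1 + r) ^ 2) := by
    field_simp
    ring
  have h1 := mul_le_mul_of_nonneg_right ha
    (show 0 ≤ r * (w * H) ^ 2 / (1 + r) ^ 2 by positivity)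
  have hq : r / (1 + r) * H ≤ 1 :=
    mul_le_one₀ ((div_le_one hp).2 (by linarith)) hH0 hH1
  have h2 : -(4 * a * (r / (1 + r)) * H * H') ≤ 4 * |a| * |H'| := by
    refine (neg_le_abs _).trans ?_
    rw [show 4 * a * (r / (1 + r)) * H * H' = 4 * (a * H') * (r / (1 + r) * H) by ring,
      abs_mul, abs_mul, abs_mul, abs_of_pos (by norm_num : (0 : ℝ) < 4),
      abs_of_nonneg (show 0 ≤ r / (1 + r) * H by positivity)]
    nlinarith [mul_le_mul_of_nonneg_left hq (show 0 ≤ 4 * (|a| * |H'|) by positivity)]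
  rw [e, e2]
  nlinarith [mul_le_mul_of_nonneg_right h2 (sq_nonneg w)]

theorem cross_term {c χ G D w b : ℝ} (hc : 0 < c) (hχ : χ = 1 ∨ (χ = 0 ∧ b = 0)) :
    -(2 * G * D * w * b) ≤ c * χ * (G * D) ^ 2 + c⁻¹ * (w * b) ^ 2 := by
  rcases hχ with rfl | ⟨rfl, rfl⟩
  · have := sq_nonneg (c * (G * D) + w * b)
    rw [← mul_le_mul_iff_right₀ hc, mul_add, ← mul_assoc c c⁻¹, mul_inv_cancel₀ hc.ne']
    nlinarith
  · simp

theorem key_pointwise (hu : IsSol f u)
    (hS : ∀ x (i j : Fin k), x (Fin.castAdd m i) * pd (Fin.castAdd m j) u x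
      = x (Fin.castAdd m j) * pd (Fin.castAdd m i) u x)
    {a : ℝ} (ha : a ^ 2 ≤ (k : ℝ) - 1) {H H' G G' : ℝ → ℝ} (hH : ∀ r, HasDerivAt H (H' r) r)
    (hH01 : ∀ r, 0 ≤ r → 0 ≤ H r ∧ H r ≤ 1) (hG : ∀ r, HasDerivAt G (G' r) r)
    {η : Sp (k + m) → ℝ} (hη : η = tst (fun r => W a r * H r) G) (hηd : ContDiff ℝ 1 η)
    {c A : ℝ} (hc : 0 < c) {x : Sp (k + m)} (hA : G' (ssq x) ≠ 0 → A ≤ ‖x‖) :
    (H (rsq x) * G (ssq x)) ^ 2 * Qd u l a x
      ≤ ((∑ i : Fin k, ∑ j, (pd j (fun y => pd (Fin.castAdd m i) u y * η y) x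
          - pd (Fin.castAdd m i) u x * η x * pd j (pd l u) x / pd l u x) ^ 2)
          - g2 u x * ∑ j, pd j η x ^ 2)
        + (G (ssq x) ^ 2 * cutErr a H' (rsq x) * g2 u x
          + c⁻¹ * ((W a (rsq x) * H (rsq x)) ^ 2 * (4 * ssq x * G' (ssq x) ^ 2) * g2 u x)
          + c * {y : Sp (k + m) | A ≤ ‖y‖}.indicator
              (fun y => (H (rsq y) * G (ssq y)) ^ 2 * Qd u l a y) x) := by
  set r := rsq x
  set w := W a r with hw
  set χ : ℝ := {y : Sp (k + m) | A ≤ ‖y‖}.indicator (fun _ => 1) x with hχ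
  have hχ' : {y : Sp (k + m) | A ≤ ‖y‖}.indicator
      (fun y => (H (rsq y) * G (ssq y)) ^ 2 * Qd u l a y) x
      = χ * ((H r * G (ssq x)) ^ 2 * Qd u l a x) := by
    rw [hχ, Set.indicator_apply, Set.indicator_apply]
    split_ifs <;> simp [r]
  have hΦ : HasDerivAt (fun r => W a r * H r)
      (-a / 2 * (w / (1 + r)) * H r + w * H' r) r :=
    (W_hasDerivAt a (rsq_nonneg x)).mul (hH r)
  obtain ⟨tc, tn⟩ := pd_tst hΦ (hG (ssq x))
  rw [← hη] at tc tn
  have hη0 : η x = w * H r * G (ssq x) := by rw [hη]; rfl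
  have g := gain_cast (l := l) hu hηd hS x
  have hn : ∀ i j, pd (Fin.natAdd k j) (fun y => pd (Fin.castAdd m i) u y * η y) x
      - pd (Fin.castAdd m i) u x * η x * pd (Fin.natAdd k j) (pd l u) x / pd l u x
      = w * H r * (G (ssq x) * dz u l i j x
          + pd (Fin.castAdd m i) u x * (G' (ssq x) * (2 * x (Fin.natAdd k j)))) := by
    intro i j
    rw [pd_mul ((pd_contDiff hu.reg _).differentiable one_ne_zero)
      (hηd.differentiable one_ne_zero), tn, hη0, dz]
    ring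
  have hgrad : ∑ j, pd j η x ^ 2
      = 4 * r * (-a / 2 * (w / (1 + r)) * H r + w * H' r) ^ 2 * G (ssq x) ^ 2
        + (w * H r) ^ 2 * (4 * ssq x * G' (ssq x) ^ 2) := by
    rw [Fin.sum_univ_add]
    simp only [tc, tn, w, r, rsq, ssq, Finset.mul_sum, Finset.sum_mul]
    congr 1 <;> exact Finset.sum_congr rfl fun i _ => by ring
  simp only [Fin.sum_univ_add (f := fun j => (pd j (fun y => pd (Fin.castAdd m _) u y * η y) x
          - pd (Fin.castAdd m _) u x * η x * pd j (pd l u) x / pd l u x) ^ 2),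
    Finset.sum_add_distrib, hn]
  set P := ∑ i : Fin k, ∑ j : Fin k,
          (pd (Fin.castAdd m j) (fun y => pd (Fin.castAdd m i) u y * η y) x
            - pd (Fin.castAdd m i) u x * η x * pd (Fin.castAdd m j) (pd l u) x / pd l u x) ^ 2
    with hP
  have hχ01 : χ = 1 ∨ (χ = 0 ∧ G' (ssq x) = 0) := by
    by_cases h : A ≤ ‖x‖
    · exact Or.inl (by simp [hχ, h])
    · exact Or.inr ⟨by simp [hχ, h], by by_contra h'; exact h (hA h')⟩
  have hcross : ∑ i, ∑ j, ((w * H r) ^ 2 * ((G (ssq x) * dz u l i j x) ^ 2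
        + (pd (Fin.castAdd m i) u x * (G' (ssq x) * (2 * x (Fin.natAdd k j)))) ^ 2))
      - ∑ i, ∑ j, ((w * H r) ^ 2 * (c * χ * (G (ssq x) * dz u l i j x) ^ 2
        + c⁻¹ * (pd (Fin.castAdd m i) u x * (G' (ssq x) * (2 * x (Fin.natAdd k j)))) ^ 2))
      ≤ ∑ i, ∑ j, (w * H r * (G (ssq x) * dz u l i j x
          + pd (Fin.castAdd m i) u x * (G' (ssq x) * (2 * x (Fin.natAdd k j))))) ^ 2 := by
    simp only [← Finset.sum_sub_distrib]
    refine Finset.sum_le_sum fun i _ => Finset.sum_le_sum fun j _ => ?_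
    have := cross_term (G := G (ssq x)) (D := dz u l i j x) (w := pd (Fin.castAdd m i) u x)
      (b := G' (ssq x) * (2 * x (Fin.natAdd k j))) hc (hχ01.imp id fun h => ⟨h.1, by simp [h.2]⟩)
    nlinarith [mul_le_mul_of_nonneg_left this (sq_nonneg (w * H r))]
  set S2 := ∑ i, ∑ j, dz u l i j x ^ 2 with hS2
  have hb : ∀ i : Fin k, ∑ j, (pd (Fin.castAdd m i) u x
      * (G' (ssq x) * (2 * x (Fin.natAdd k j)))) ^ 2
      = pd (Fin.castAdd m i) u x ^ 2 * (4 * ssq x * G' (ssq x) ^ 2) := fun i => by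
    simp only [ssq, Finset.mul_sum, Finset.sum_mul]
    exact Finset.sum_congr rfl fun j _ => by ring
  have e1 : ∀ d e : ℝ, ∑ i, ∑ j, ((w * H r) ^ 2 * (d * (G (ssq x) * dz u l i j x) ^ 2
        + e * (pd (Fin.castAdd m i) u x * (G' (ssq x) * (2 * x (Fin.natAdd k j)))) ^ 2))
      = (w * H r) ^ 2 * (d * (G (ssq x) ^ 2 * S2) + e * (g2 u x * (4 * ssq x * G' (ssq x) ^ 2))) := by
    intro d e
    simp only [Finset.sum_add_distrib, ← Finset.mul_sum, mul_pow (G (ssq x)), hb,
      ← Finset.sum_mul, ← hS2, show ∑ i : Fin k, pd (Fin.castAdd m i) u x ^ 2 = g2 u x from rfl]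
  have e11 := e1 1 1
  simp only [one_mul] at e11
  rw [e11, e1 (c * χ) c⁻¹] at hcross
  have hsg := mul_le_mul_of_nonneg_left
    (scalar_gain (H' := H' r) (rsq_nonneg x) ha (hH01 r (rsq_nonneg x)).1 (hH01 r (rsq_nonneg x)).2)
    (mul_nonneg (sq_nonneg (G (ssq x))) (g2_nonneg (u := u) x))
  have hgain0 : 0 ≤ c * χ * ((H r * G (ssq x)) ^ 2 * (w ^ 2 *
      (((k : ℝ) - 1) * g2 u x / (1 + r) ^ 2))) := by
    have h1 : 0 ≤ (k : ℝ) - 1 := (sq_nonneg a).trans ha
    rcases hχ01 with h | ⟨h, -⟩ <;> rw [h] <;> have := g2_nonneg (u := u) x <;>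
      positivity
  rw [hgrad, hχ', Qd, ← hS2, cutErr, ← hw]
  rw [hη0] at g
  simp only [div_eq_mul_inv] at g hsg hgain0 ⊢
  simp only [w, r] at *
  linarith

theorem key_inequality (hf : ContDiff ℝ 1 f) (hu : IsSol f u) (hpos : ∀ x, 0 < pd l u x)
    (hS : ∀ x (i j : Fin k), x (Fin.castAdd m i) * pd (Fin.castAdd m j) u x
      = x (Fin.castAdd m j) * pd (Fin.castAdd m i) u x)
    {a : ℝ} (ha : a ^ 2 ≤ (k : ℝ) - 1) {H H' G G' : ℝ → ℝ} (hH : ∀ r, HasDerivAt H (H' r) r)
    (hH' : Continuous H') (hH01 : ∀ r, 0 ≤ r → 0 ≤ H r ∧ H r ≤ 1)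
    (hG : ∀ r, HasDerivAt G (G' r) r) (hG' : Continuous G') {R : ℝ}
    (hHR : ∀ r, R ≤ r → H r = 0 ∧ H' r = 0) (hGR : ∀ r, R ≤ r → G r = 0 ∧ G' r = 0)
    {c A : ℝ} (hc : 0 < c) (hA : ∀ x : Sp (k + m), G' (ssq x) ≠ 0 → A ≤ ‖x‖) :
    Integrable (fun x : Sp (k + m) => G (ssq x) ^ 2 * cutErr a H' (rsq x) * g2 u x) ∧
    Integrable (fun x : Sp (k + m) =>
      (W a (rsq x) * H (rsq x)) ^ 2 * (4 * ssq x * G' (ssq x) ^ 2) * g2 u x) ∧
    Integrable (fun x : Sp (k + m) => (H (rsq x) * G (ssq x)) ^ 2 * Qd u l a x) ∧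
    ∫ x, (H (rsq x) * G (ssq x)) ^ 2 * Qd u l a x
      ≤ (∫ x, G (ssq x) ^ 2 * cutErr a H' (rsq x) * g2 u x)
        + c⁻¹ * (∫ x, (W a (rsq x) * H (rsq x)) ^ 2 * (4 * ssq x * G' (ssq x) ^ 2) * g2 u x)
        + c * ∫ x, {y : Sp (k + m) | A ≤ ‖y‖}.indicator
              (fun y => (H (rsq y) * G (ssq y)) ^ 2 * Qd u l a y) x := by
  have hH1 : ContDiff ℝ 1 H := contDiff_one_iff_deriv.2 ⟨fun r => (hH r).differentiableAt,
    by rw [show deriv H = H' from funext fun r => (hH r).deriv]; exact hH'⟩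
  have hG1 : ContDiff ℝ 1 G := contDiff_one_iff_deriv.2 ⟨fun r => (hG r).differentiableAt,
    by rw [show deriv G = G' from funext fun r => (hG r).deriv]; exact hG'⟩
  set η : Sp (k + m) → ℝ := tst (fun r => W a r * H r) G with hη
  have hηd : ContDiff ℝ 1 η := tst_contDiff
    (fun r hr => (W_contDiffAt a hr).mul hH1.contDiffAt) (fun r _ => hG1.contDiffAt)
  have hηc : HasCompactSupport η := tst_compact (R := R)
    (fun r hr => by simp [(hHR r hr).1]) (fun r hr => (hGR r hr).1)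
  have hK : IsCompact (box (k := k) (m := m) (Real.sqrt |R|) (Real.sqrt |R|)) := box_isCompact _ _
  have hout : ∀ x ∉ box (k := k) (m := m) (Real.sqrt |R|) (Real.sqrt |R|),
      R ≤ rsq x ∨ R ≤ ssq x := by
    intro x hx
    simp only [box, Set.mem_ofPred_eq, not_and_or, not_le, Real.sq_sqrt (abs_nonneg R)] at hx
    exact hx.imp (fun h => (le_abs_self R).trans h.le) fun h => (le_abs_self R).trans h.le
  have cr : Continuous fun x : Sp (k + m) => rsq x := (rsq_contDiff (N := 1)).continuous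
  have cs : Continuous fun x : Sp (k + m) => ssq x := (ssq_contDiff (N := 1)).continuous
  have cg := g2_continuous hu.reg
  have cE : Continuous fun x : Sp (k + m) => cutErr a H' (rsq x) :=
    ((W_continuous a).pow 2).mul ((continuous_const.mul (hH'.comp cr).abs).add
      ((continuous_const.mul cr).mul ((hH'.comp cr).pow 2)))
  have i1 : Integrable (fun x : Sp (k + m) => G (ssq x) ^ 2 * cutErr a H' (rsq x) * g2 u x) :=
    ((((hG1.continuous.comp cs).pow 2).mul cE).mul cg).integrable_of_hasCompactSupport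
      (HasCompactSupport.intro hK fun x hx => by
        rcases hout x hx with h | h
        · simp [cutErr, (hHR _ h).2]
        · simp [(hGR _ h).1])
  have i2 : Integrable (fun x : Sp (k + m) =>
      (W a (rsq x) * H (rsq x)) ^ 2 * (4 * ssq x * G' (ssq x) ^ 2) * g2 u x) :=
    (((((W_continuous a).mul (hH1.continuous.comp cr)).pow 2).mul
      ((continuous_const.mul cs).mul ((hG'.comp cs).pow 2))).mul cg).integrable_of_hasCompactSupport
      (HasCompactSupport.intro hK fun x hx => by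
        rcases hout x hx with h | h
        · simp [(hHR _ h).1]
        · simp [(hGR _ h).2])
  have i3 : Integrable (fun x : Sp (k + m) => (H (rsq x) * G (ssq x)) ^ 2 * Qd u l a x) :=
    ((((hH1.continuous.comp cr).mul (hG1.continuous.comp cs)).pow 2).mul
      (Qd_continuous hu.reg hpos a)).integrable_of_hasCompactSupport
      (HasCompactSupport.intro hK fun x hx => by
        rcases hout x hx with h | h
        · simp [(hHR _ h).1]
        · simp [(hGR _ h).1])
  have i4 := i3.indicator (s := {y : Sp (k + m) | A ≤ ‖y‖})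
    (isClosed_le continuous_const continuous_norm).measurableSet
  set P := fun (i : Fin k) x => ∑ j, (pd j (fun y => pd (Fin.castAdd m i) u y * η y) x
    - pd (Fin.castAdd m i) u x * η x * pd j (pd l u) x / pd l u x) ^ 2 with hP
  have hw : ∀ i, ContDiff ℝ 1 (pd i u) := pd_contDiff hu.reg
  have iP : ∀ i, Integrable (P i) := by
    intro i
    have hξ : ContDiff ℝ 1 fun y => pd (Fin.castAdd m i) u y * η y := (hw _).mul hηd
    refine (continuous_finsetSum _ fun j _ => ((pd_cont hξ j).sub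
      ((((hw _).continuous.mul hηd.continuous).mul (pd_cont (hw _) j)).div
        (hw _).continuous fun x => (hpos x).ne')).pow 2).integrable_of_hasCompactSupport ?_
    refine HasCompactSupport.intro (hηc.mul_left (f := pd (Fin.castAdd m i) u)) fun x hx => ?_
    have h0 : pd (Fin.castAdd m i) u x * η x = 0 :=
      image_eq_zero_of_notMem_tsupport (f := fun y => pd (Fin.castAdd m i) u y * η y) hx
    have h1 : ∀ j, pd j (fun y => pd (Fin.castAdd m i) u y * η y) x = 0 := fun j => by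
      rw [pd, fderiv_of_notMem_tsupport ℝ (show x ∉ tsupport
        (fun y => pd (Fin.castAdd m i) u y * η y) from hx)]
      rfl
    simp [h0, h1]
  have iQ : ∀ i : Fin k, Integrable fun x => pd (Fin.castAdd m i) u x ^ 2 * ∑ j, pd j η x ^ 2 :=
    fun i => (((hw _).continuous.pow 2).mul (continuous_finsetSum _ fun j _ =>
      (pd_cont hηd j).pow 2)).integrable_of_hasCompactSupport
      (HasCompactSupport.intro hηc fun x hx => by
        simp [pd, fderiv_of_notMem_tsupport ℝ hx])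
  have eQ : (fun x => g2 u x * ∑ j, pd j η x ^ 2)
      = fun x => ∑ i : Fin k, pd (Fin.castAdd m i) u x ^ 2 * ∑ j, pd j η x ^ 2 :=
    funext fun x => by simp only [g2, Finset.sum_mul]
  have iQ' : Integrable fun x => g2 u x * ∑ j, pd j η x ^ 2 :=
    eQ ▸ integrable_finsetSum _ fun i _ => iQ i
  have iP' : Integrable fun x => ∑ i, P i x := integrable_finsetSum _ fun i _ => iP i
  have hzero : ∫ x, ((∑ i, P i x) - g2 u x * ∑ j, pd j η x ^ 2) = 0 := by
    rw [integral_sub iP' iQ', integral_finsetSum _ fun i _ => iP i, eQ,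
      integral_finsetSum _ fun i _ => iQ i, sub_eq_zero]
    exact Finset.sum_congr rfl fun i _ => picone hf hu _ hpos hηd hηc _
  refine ⟨i1, i2, i3, ?_⟩
  have h := integral_mono i3
    ((iP'.sub iQ').add ((i1.add (i2.const_mul c⁻¹)).add (i4.const_mul c)))
    fun x => key_pointwise hu hS ha hH hH01 hG hη hηd hc (hA x)
  simp only [Pi.add_apply, Pi.sub_apply] at h
  have j0 : Integrable fun x => (∑ i, P i x) - g2 u x * ∑ j, pd j η x ^ 2 := iP'.sub iQ'
  have j1 : Integrable fun x : Sp (k + m) => G (ssq x) ^ 2 * cutErr a H' (rsq x) * g2 u x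
      + c⁻¹ * ((W a (rsq x) * H (rsq x)) ^ 2 * (4 * ssq x * G' (ssq x) ^ 2) * g2 u x) :=
    i1.add (i2.const_mul c⁻¹)
  rw [integral_add j0 (j1.fun_add (i4.const_mul c)), integral_add j1 (i4.const_mul c),
    integral_add i1 (i2.const_mul c⁻¹), integral_const_mul, integral_const_mul] at h
  rw [hzero, zero_add] at h
  exact h

end Vale.Agent.P134
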