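import Vale.Agent.P134.Planar

/-!
# P134: one-dimensionality of rotationally symmetric monotone solutions
-/

namespace Vale.Agent.P134

open MeasureTheory Filter Topology Finset

variable {k m n : ℕ} {f : ℝ → ℝ}

theorem sum_ev (w : Sp n) : ∑ j, w j • ev j = w := by
  simpa [ev] using (EuclideanSpace.basisFun (Fin n) ℝ).sum_repr w

theorem fderiv_eq_sum {g : Sp n → ℝ} (x w : Sp n) : fderiv ℝ g x w = ∑ j, w j * pd j g x := by
  conv_lhs => rw [← sum_ev w, map_sum]
  simp [pd]

/-- A function whose gradient has a constant direction is one-dimensional. -/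
theorem one_dim_of_gradient {u : Sp n → ℝ} (hu : Differentiable ℝ u) {E : Sp n} (hE : E ≠ 0)
    {φ : Sp n → ℝ} (h : ∀ x j, pd j u x = φ x * E j) :
    ∃ e : Sp n, ‖e‖ = 1 ∧ ∃ h : ℝ → ℝ, ∀ x, u x = h (inner ℝ e x) := by
  have hn : 0 < ‖E‖ := norm_pos_iff.2 hE
  set e := ‖E‖⁻¹ • E with he
  have hen : ‖e‖ = 1 := by
    rw [he, norm_smul, norm_inv, norm_norm, inv_mul_cancel₀ hn.ne']
  refine ⟨e, hen, fun t => u (t • e), fun x => ?_⟩
  set p := inner ℝ e x • e with hp
  have hperp : inner ℝ E (x - p) = 0 := by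
    have : E = ‖E‖ • e := by rw [he, smul_smul, mul_inv_cancel₀ hn.ne', one_smul]
    rw [this, real_inner_smul_left, inner_sub_right, hp, real_inner_smul_right,
      real_inner_self_eq_norm_sq, hen]
    ring
  have hder : ∀ t : ℝ, HasDerivAt (fun s : ℝ => u (p + s • (x - p))) 0 t := by
    intro t
    have h1 : HasDerivAt (fun s : ℝ => p + s • (x - p)) (x - p) t := by
      simpa using ((hasDerivAt_id t).smul_const (x - p)).const_add p
    have h2 := (hu (p + t • (x - p))).hasFDerivAt.comp_hasDerivAt t h1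
    have hz : fderiv ℝ u (p + t • (x - p)) (x - p) = 0 := by
      rw [fderiv_eq_sum]
      simp only [h]
      have e1 : inner ℝ E (x - p) = ∑ j, (x - p) j * E j := by
        simp [PiLp.inner_apply]
      rw [← mul_zero (φ (p + t • (x - p))), ← hperp, e1, Finset.mul_sum]
      exact Finset.sum_congr rfl fun j _ => by ring
    rw [hz] at h2
    exact h2
  simpa using is_const_of_deriv_eq_zero (fun t => (hder t).differentiableAt)
    (fun t => (hder t).deriv) 1 0

/-- The Liouville property of `∂_z u / v` for monotone solutions of two variables. -/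
theorem planar_gradient {u : Sp (k + 2) → ℝ} (hf : ContDiff ℝ 1 f) (hu : IsSol f u)
    (hb : ∀ x, |u x| ≤ 1) (hpos : ∀ x, 0 < pd (Fin.natAdd k 1) u x)
    (h0 : ∀ x (i : Fin k), pd (Fin.castAdd 2 i) u x = 0) :
    ∃ c : ℝ, ∀ x, pd (Fin.natAdd k 0) u x = c * pd (Fin.natAdd k 1) u x := by
  obtain ⟨B, hB0, hB⟩ := exists_th_bound
  obtain ⟨C, hC0, hC⟩ := box_energy hu hf.continuous hb
  set w := pd (Fin.natAdd k (0 : Fin 2)) u with hw
  set v := pd (Fin.natAdd k (1 : Fin 2)) u with hv
  have hwd : ContDiff ℝ 1 w := pd_contDiff hu.reg _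
  have hvd : ContDiff ℝ 1 v := pd_contDiff hu.reg _
  have hcast : ∀ (q : Fin (k + 2)) (i : Fin k) x, pd (Fin.castAdd 2 i) (pd q u) x = 0 := by
    intro q i x
    rw [pd_comm hu.reg, show pd (Fin.castAdd 2 i) u = fun _ => 0 from funext fun y => h0 y i]
    simp [pd]
  set Q : Sp (k + 2) → ℝ := fun x => ∑ j : Fin 2,
    (pd (Fin.natAdd k j) w x - w x * pd (Fin.natAdd k j) v x / v x) ^ 2 with hQ
  have hQc : Continuous Q := continuous_finsetSum _ fun j _ => ((pd_cont hwd _).sub
    ((hwd.continuous.mul (pd_cont hvd _)).div hvd.continuous fun x => (hpos x).ne')).pow 2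
  have hQ0 : ∀ x, 0 ≤ Q x := fun x => Finset.sum_nonneg fun j _ => sq_nonneg _
  have bound : ∀ q I : ℕ, 1 ≤ I →
      Integrable (fun x : Sp (k + 2) => (sc (2 ^ q) (rsq x) * lg I (ssq x)) ^ 2 * Q x) ∧
      ∫ x, (sc (2 ^ q) (rsq x) * lg I (ssq x)) ^ 2 * Q x
        ≤ 4 * (C * (2 * 2 ^ q) ^ k * (2048 * B ^ 2) * (((I : ℝ) + 1) / (I : ℝ) ^ 2)) := by
    intro q I hI
    have hS : (0 : ℝ) < 2 ^ q := by positivity
    set η : Sp (k + 2) → ℝ := tst (sc (2 ^ q)) (lg I) with hη
    have hlg : ContDiff ℝ 1 (lg I) := contDiff_one_iff_deriv.2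
      ⟨fun r => (lg_hasDerivAt I r).differentiableAt, by
        rw [show deriv (lg I) = lg' I from funext fun r => (lg_hasDerivAt I r).deriv]
        exact lg'_continuous I⟩
    have hηd : ContDiff ℝ 1 η :=
      tst_contDiff (fun r _ => (sc_contDiff _).contDiffAt) fun r _ => hlg.contDiffAt
    set R := 4 * ((2 : ℝ) ^ q) ^ 2 + 4 * (4 : ℝ) ^ I + 1 with hR
    have hp4 := pow_pos (by norm_num : (0 : ℝ) < 4) I
    have hR0 : ∀ r, R ≤ r → 0 ≤ r := fun r hr => by
      nlinarith [sq_nonneg ((2 : ℝ) ^ q)]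
    have hηc : HasCompactSupport η := tst_compact (R := R)
      (fun r hr => (sc_facts hS (hR0 r hr)).2.2.2 (by linarith))
      (fun r hr => (lg_ne_zero_le (by nlinarith [sq_nonneg ((2 : ℝ) ^ q)])).1)
    set P : Sp (k + 2) → ℝ := fun x => ∑ j, (pd j (fun y => w y * η y) x
        - w x * η x * pd j v x / v x) ^ 2 with hP
    have hpic : ∫ x, P x = ∫ x, w x ^ 2 * ∑ j, pd j η x ^ 2 :=
      picone hf hu _ hpos hηd hηc _
    have hwη : ContDiff ℝ 1 fun y => w y * η y := hwd.mul hηd
    have hsupp : ∀ x ∉ tsupport η, η x = 0 ∧ ∀ j, pd j η x = 0 := fun x hx =>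
      ⟨image_eq_zero_of_notMem_tsupport hx, fun j => by
        rw [pd, fderiv_of_notMem_tsupport ℝ hx]; rfl⟩
    have iP : Integrable P := by
      refine (continuous_finsetSum _ fun j _ => ((pd_cont hwη j).sub
        (((hwd.continuous.mul hηd.continuous).mul (pd_cont hvd j)).div hvd.continuous
          fun x => (hpos x).ne')).pow 2).integrable_of_hasCompactSupport
        (HasCompactSupport.intro hηc fun x hx => ?_)
      simp [pd_mul (hwd.differentiable one_ne_zero) (hηd.differentiable one_ne_zero),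
        (hsupp x hx).1, (hsupp x hx).2]
    have iR : Integrable fun x => w x ^ 2 * ∑ j, pd j η x ^ 2 :=
      ((hwd.continuous.pow 2).mul (continuous_finsetSum _ fun j _ =>
        (pd_cont hηd j).pow 2)).integrable_of_hasCompactSupport
        (HasCompactSupport.intro hηc fun x hx => by simp [(hsupp x hx).2])
    have iQ : Integrable (fun x : Sp (k + 2) => (sc (2 ^ q) (rsq x) * lg I (ssq x)) ^ 2 * Q x) :=
      ((hηd.continuous.pow 2).mul hQc).integrable_of_hasCompactSupport
        (HasCompactSupport.intro hηc fun x hx => by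
          simp [(hsupp x hx).1])
    set Z : Sp (k + 2) → ℝ := fun x => ∑ i ∈ Finset.range (I + 1),
      2048 * B ^ 2 / (I : ℝ) ^ 2 * ((4 : ℝ)⁻¹) ^ i *
        (box (2 * 2 ^ q) (2 ^ i)).indicator (fun x => ∑ l, pd l u x ^ 2) x with hZ
    have iZi : ∀ i : ℕ, Integrable fun x : Sp (k + 2) =>
        2048 * B ^ 2 / (I : ℝ) ^ 2 * ((4 : ℝ)⁻¹) ^ i *
          (box (2 * 2 ^ q) (2 ^ i)).indicator (fun x => ∑ l, pd l u x ^ 2) x := fun i =>
      (gradient_integrable_box hu.reg _ _).const_mul _
    have iZ : Integrable Z := integrable_finsetSum _ fun i _ => iZi i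
    have hpt : ∀ x, (sc (2 ^ q) (rsq x) * lg I (ssq x)) ^ 2 * Q x
        ≤ 2 * (P x - w x ^ 2 * ∑ j, pd j η x ^ 2) + 4 * Z x := by
      intro x
      obtain ⟨tc, tn⟩ := pd_tst (sc_hasDerivAt (2 ^ q) (rsq x)) (lg_hasDerivAt I (ssq x))
      have hj : ∀ j : Fin 2, (sc (2 ^ q) (rsq x) * lg I (ssq x)) ^ 2
            * (pd (Fin.natAdd k j) w x - w x * pd (Fin.natAdd k j) v x / v x) ^ 2
          ≤ 2 * ((pd (Fin.natAdd k j) (fun y => w y * η y) x
              - w x * η x * pd (Fin.natAdd k j) v x / v x) ^ 2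
              - w x ^ 2 * pd (Fin.natAdd k j) η x ^ 2)
            + 4 * (sc (2 ^ q) (rsq x) ^ 2 * w x ^ 2
              * (4 * x (Fin.natAdd k j) ^ 2 * lg' I (ssq x) ^ 2)) := by
        intro j
        rw [pd_mul (hwd.differentiable one_ne_zero) (hηd.differentiable one_ne_zero), tn, hη, tst,
          mul_comm (w x) (sc _ _ * lg _ _), mul_assoc (sc _ _ * lg _ _) (w x),
          mul_div_assoc (sc _ _ * lg _ _)]
        set a := sc (2 ^ q) (rsq x)
        set D := pd (Fin.natAdd k j) w x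
        set V := w x * pd (Fin.natAdd k j) v x / v x
        set b := w x * (lg' I (ssq x) * (2 * x (Fin.natAdd k j)))
        nlinarith [sq_nonneg (a * (lg I (ssq x) * (D - V) + 2 * b))]
      have hsum := Finset.sum_le_sum fun j (_ : j ∈ (Finset.univ : Finset (Fin 2))) => hj j
      have hc0 : ∀ i : Fin k, (pd (Fin.castAdd 2 i) (fun y => w y * η y) x
          - w x * η x * pd (Fin.castAdd 2 i) v x / v x) ^ 2
          = w x ^ 2 * pd (Fin.castAdd 2 i) η x ^ 2 := fun i => by
        rw [pd_mul (hwd.differentiable one_ne_zero) (hηd.differentiable one_ne_zero),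
          hw, hv, hcast, hcast]
        ring
      have eP : P x - w x ^ 2 * ∑ j, pd j η x ^ 2 = ∑ j : Fin 2,
          ((pd (Fin.natAdd k j) (fun y => w y * η y) x
              - w x * η x * pd (Fin.natAdd k j) v x / v x) ^ 2
              - w x ^ 2 * pd (Fin.natAdd k j) η x ^ 2) := by
        simp only [hP, Fin.sum_univ_add, mul_add, Finset.mul_sum, hc0, Finset.sum_sub_distrib]
        ring
      have eS : ∑ j : Fin 2, sc (2 ^ q) (rsq x) ^ 2 * w x ^ 2
          * (4 * x (Fin.natAdd k j) ^ 2 * lg' I (ssq x) ^ 2)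
          = sc (2 ^ q) (rsq x) ^ 2 * w x ^ 2 * (4 * ssq x * lg' I (ssq x) ^ 2) := by
        simp only [ssq, Finset.mul_sum, Finset.sum_mul]
      rw [Finset.sum_add_distrib, ← Finset.mul_sum, ← Finset.mul_sum, ← Finset.mul_sum, ← eP,
        eS] at hsum
      refine hsum.trans (add_le_add le_rfl (mul_le_mul_of_nonneg_left ?_ (by norm_num)))
      obtain ⟨a0, a1, -, a3⟩ := sc_facts hS (rsq_nonneg x)
      by_cases hr : 4 * ((2 : ℝ) ^ q) ^ 2 ≤ rsq x
      · rw [a3 hr]
        simp only [ne_eq, OfNat.ofNat_ne_zero, not_false_eq_true, zero_pow, zero_mul, hZ]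
        exact Finset.sum_nonneg fun i _ => mul_nonneg (by positivity)
          (Set.indicator_nonneg (fun y _ => Finset.sum_nonneg fun l _ => sq_nonneg _) x)
      · calc sc (2 ^ q) (rsq x) ^ 2 * w x ^ 2 * (4 * ssq x * lg' I (ssq x) ^ 2)
            ≤ (∑ l, pd l u x ^ 2) * ∑ i ∈ Finset.range (I + 1),
              if ssq x ≤ 4 ^ i then 2048 * B ^ 2 / (I : ℝ) ^ 2 * ((4 : ℝ)⁻¹) ^ i else 0 :=
              mul_le_mul ((mul_le_of_le_one_left (sq_nonneg _) (pow_le_one₀ a0 a1)).trans
                (Finset.single_le_sum (f := fun l => pd l u x ^ 2) (fun l _ => sq_nonneg _)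
                  (Finset.mem_univ _))) (lg'_bound hB hI (ssq_nonneg x))
                (mul_nonneg (mul_nonneg (by norm_num) (ssq_nonneg x)) (sq_nonneg _))
                (Finset.sum_nonneg fun l _ => sq_nonneg _)
          _ = Z x := by
              rw [hZ, Finset.mul_sum]
              refine Finset.sum_congr rfl fun i _ => ?_
              have e4 : ((2 : ℝ) ^ i) ^ 2 = 4 ^ i := by rw [← pow_mul, mul_comm, pow_mul]; norm_num
              have hr' : rsq x ≤ (2 * (2 : ℝ) ^ q) ^ 2 := by nlinarith [not_le.1 hr]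
              simp only [Set.indicator_apply, box, Set.mem_ofPred_eq, e4, hr', true_and]
              split_ifs <;> ring
    refine ⟨iQ, ?_⟩
    have h := integral_mono iQ (((iP.sub iR).const_mul 2).add (iZ.const_mul 4)) hpt
    have j0 : Integrable fun x => 2 * (P x - w x ^ 2 * ∑ j, pd j η x ^ 2) :=
      (iP.sub iR).const_mul 2
    simp only [Pi.add_apply, Pi.sub_apply] at h
    rw [integral_add j0 (iZ.const_mul 4), integral_const_mul, integral_const_mul,
      integral_sub iP iR, hpic, sub_self, mul_zero, zero_add] at h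
    refine h.trans (mul_le_mul_of_nonneg_left ?_ (by norm_num))
    rw [integral_finsetSum _ fun i _ => iZi i]
    have hi : ∀ i ∈ Finset.range (I + 1), (∫ x, 2048 * B ^ 2 / (I : ℝ) ^ 2 * ((4 : ℝ)⁻¹) ^ i *
        (box (k := k) (m := 2) (2 * 2 ^ q) (2 ^ i)).indicator (fun x => ∑ l, pd l u x ^ 2) x)
        ≤ C * (2 * 2 ^ q) ^ k * (2048 * B ^ 2) / (I : ℝ) ^ 2 := by
      intro i _
      rw [integral_const_mul]
      refine (mul_le_mul_of_nonneg_left (hC _ _ (by linarith [one_le_pow₀ (one_le_two (α := ℝ)) (n := q)])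
        (one_le_pow₀ one_le_two)) (by positivity)).trans (le_of_eq ?_)
      rw [← pow_mul (2 : ℝ) i 2, mul_comm i 2, pow_mul (2 : ℝ) 2 i, inv_pow]
      norm_num
      field_simp
    refine (Finset.sum_le_sum hi).trans (le_of_eq ?_)
    rw [Finset.sum_const, Finset.card_range, nsmul_eq_mul]
    push_cast
    ring
  have hzero : ∀ x, Q x = 0 := by
    intro x
    refine eq_zero_of_small hQc hQ0 (fun R => ?_) x
    obtain ⟨q, hq⟩ : ∃ q : ℕ, R ≤ 2 ^ q := (pow_unbounded_of_one_lt R one_lt_two).imp fun _ h => h.le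
    set K := 4 * (C * (2 * 2 ^ q) ^ k * (2048 * B ^ 2))
    have hlim : Tendsto (fun I : ℕ => K * (((I : ℝ) + 1) / (I : ℝ) ^ 2)) atTop (𝓝 0) := by
      have h1 := tendsto_inv_atTop_nhds_zero_nat (𝕜 := ℝ)
      have h2 : Tendsto (fun I : ℕ => K * ((I : ℝ)⁻¹ + (I : ℝ)⁻¹ * (I : ℝ)⁻¹)) atTop (𝓝 0) := by
        simpa using (h1.add (h1.mul h1)).const_mul K
      refine h2.congr' ?_
      filter_upwards [eventually_ge_atTop 1] with I hI
      have : (I : ℝ) ≠ 0 := by positivity
      field_simp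
    refine ge_of_tendsto hlim ?_
    filter_upwards [lg_scale_tendsto.eventually_ge_atTop R, eventually_ge_atTop 1] with I hIR hI
    obtain ⟨i1, h1⟩ := bound q I hI
    refine le_trans ?_ (le_trans h1 (le_of_eq (by ring)))
    refine integral_mono ((hQc.continuousOn.integrableOn_compact
      (isCompact_closedBall _ _)).integrable_indicator measurableSet_closedBall) i1 fun y => ?_
    by_cases hy : y ∈ Metric.closedBall (0 : Sp (k + 2)) R
    · rw [Set.indicator_of_mem hy]
      rw [mem_closedBall_zero_iff] at hy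
      have hr : rsq y ≤ ((2 : ℝ) ^ q) ^ 2 := by
        nlinarith [norm_sq_eq y, ssq_nonneg y, pow_le_pow_left₀ (norm_nonneg y) (hy.trans hq) 2]
      rw [(sc_facts (by positivity) (rsq_nonneg y)).2.2.1 hr,
        (lg_scale hI y).2.1 (hy.trans hIR)]
      simp
    · rw [Set.indicator_of_notMem hy]
      exact mul_nonneg (sq_nonneg _) (hQ0 y)
  have hd : ∀ (j : Fin (k + 2)) x, pd j w x - w x * pd j v x / v x = 0 := by
    intro j x
    induction j using Fin.addCases with
    | left i => rw [hw, hv, hcast, hcast]; simp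
    | right i =>
      simpa using (Finset.sum_eq_zero_iff_of_nonneg fun i _ => sq_nonneg _).1 (hzero x) i
        (Finset.mem_univ i)
  have dg : Differentiable ℝ fun x => w x / v x := fun x =>
    ((hwd.differentiable one_ne_zero) x).mul (((hvd.differentiable one_ne_zero) x).inv (hpos x).ne')
  have hgz : ∀ x, fderiv ℝ (fun x => w x / v x) x = 0 := by
    intro x
    refine ContinuousLinearMap.ext fun y => ?_
    rw [fderiv_eq_sum]
    refine Finset.sum_eq_zero fun j _ => mul_eq_zero_of_right _ ?_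
    have h1 : w = fun z => w z / v z * v z := funext fun z => (div_mul_cancel₀ _ (hpos z).ne').symm
    have h2 := pd_mul dg (hvd.differentiable one_ne_zero) j x
    rw [← h1] at h2
    have h3 := hd j x
    rw [h2, mul_div_right_comm (w x)] at h3
    rcases mul_eq_zero.1 (show pd j (fun x => w x / v x) x * v x = 0 by linarith) with h | h
    · exact h
    · exact absurd h (hpos x).ne'
  refine ⟨w 0 / v 0, fun x => ?_⟩
  rw [is_const_of_fderiv_eq_zero dg hgz 0 x, div_mul_cancel₀ _ (hpos x).ne']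

/-- Rotational symmetry gives `x_i ∂_j u = x_j ∂_i u`. -/
theorem symm_relation {u : Sp (k + m) → ℝ} (hd : Differentiable ℝ u)
    (hU : ∀ x y : Sp (k + m), rsq x = rsq y →
      (∀ j, x (Fin.natAdd k j) = y (Fin.natAdd k j)) → u x = u y)
    (x : Sp (k + m)) (i j : Fin k) :
    x (Fin.castAdd m i) * pd (Fin.castAdd m j) u x
      = x (Fin.castAdd m j) * pd (Fin.castAdd m i) u x := by
  rcases eq_or_ne i j with rfl | hij
  · rfl
  set a := x (Fin.castAdd m i)
  set b := x (Fin.castAdd m j)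
  let A : ℝ → ℝ := fun θ => a * (Real.cos θ - 1) - b * Real.sin θ
  let B : ℝ → ℝ := fun θ => a * Real.sin θ + b * (Real.cos θ - 1)
  let c : ℝ → Sp (k + m) := fun θ => x + A θ • ev (Fin.castAdd m i) + B θ • ev (Fin.castAdd m j)
  have hAt : HasDerivAt A (-b) 0 := by
    simpa [A] using! ((((Real.hasDerivAt_cos (0 : ℝ)).sub_const 1).const_mul a).sub
      ((Real.hasDerivAt_sin (0 : ℝ)).const_mul b))
  have hBt : HasDerivAt B a 0 := by
    simpa [B] using! (((Real.hasDerivAt_sin (0 : ℝ)).const_mul a).add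
      (((Real.hasDerivAt_cos (0 : ℝ)).sub_const 1).const_mul b))
  have hc : HasDerivAt c ((-b) • ev (Fin.castAdd m i) + a • ev (Fin.castAdd m j)) 0 :=
    ((hAt.smul_const (ev (Fin.castAdd m i))).const_add x).add
      (hBt.smul_const (ev (Fin.castAdd m j)))
  have hc0 : c 0 = x := by simp [c, A, B]
  have h1 := ((hd (c 0)).hasFDerivAt.comp_hasDerivAt 0 hc)
  have hconst : u ∘ c = fun _ => u x := by
    funext θ
    refine hU _ _ ?_ fun q => ?_
    · have e : ∀ q : Fin k, c θ (Fin.castAdd m q) ^ 2 - x (Fin.castAdd m q) ^ 2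
          = (if q = i then (a + A θ) ^ 2 - a ^ 2 else 0)
            + (if q = j then (b + B θ) ^ 2 - b ^ 2 else 0) := by
        intro q
        by_cases hqi : q = i
        · subst hqi
          simp [c, ev, hij, a]
        · by_cases hqj : q = j
          · subst hqj
            simp [c, ev, hqi, b]
          · simp [c, ev, hqi, hqj]
      unfold rsq
      rw [← sub_eq_zero, ← Finset.sum_sub_distrib, Finset.sum_congr rfl fun q _ => e q,
        Finset.sum_add_distrib, Finset.sum_ite_eq', Finset.sum_ite_eq']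
      simp only [Finset.mem_univ, if_true, A, B]
      linear_combination (a ^ 2 + b ^ 2) * Real.sin_sq_add_cos_sq θ
    · simp [c, ev, (castAdd_ne_natAdd _ q).symm]
  rw [hconst, hc0] at h1
  have h2 := h1.unique (hasDerivAt_const 0 (u x))
  rw [map_add, map_smul, map_smul, smul_eq_mul, smul_eq_mul] at h2
  simp only [pd]
  linarith

theorem translate {u : Sp n → ℝ} (hu : ContDiff ℝ 2 u)
    (heq : ∀ x, Laplacian.laplacian u x = f (u x)) (C : Sp n) :
    IsSol f (fun x => u (x + C)) ∧ ∀ j x, pd j (fun x => u (x + C)) x = pd j u (x + C) := by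
  have hp : ∀ j, pd j (fun x => u (x + C)) = fun x => pd j u (x + C) := fun j => funext fun x => by
    show fderiv ℝ (fun y => u (y + C)) x (ev j) = fderiv ℝ u (x + C) (ev j)
    rw [fderiv_comp_add_right]
  refine ⟨⟨hu.comp (contDiff_id.add contDiff_const), fun x => ?_⟩, fun j x => congrFun (hp j) x⟩
  rw [← heq, laplacian_eq_sum hu]
  refine Finset.sum_congr rfl fun i _ => ?_
  rw [hp]
  show fderiv ℝ (fun y => pd i u (y + C)) x (ev i) = fderiv ℝ (pd i u) (x + C) (ev i)
  rw [fderiv_comp_add_right]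

/-- Dimension `k + 1 ≤ 6`, axial symmetry. -/
theorem one_dim_axisymmetric (hk : 2 ≤ k) (hk5 : k ≤ 5) (hf : ContDiff ℝ 1 f)
    {u : Sp (k + 1) → ℝ} (hu : ContDiff ℝ 2 u) (heq : ∀ x, Laplacian.laplacian u x = f (u x))
    (hb : ∀ x, |u x| ≤ 1) (hpos : ∀ x, 0 < pd (Fin.last k) u x) (c : Fin k → ℝ)
    (U : ℝ → ℝ → ℝ)
    (hU : ∀ x, u x = U (∑ i : Fin k, (x i.castSucc - c i) ^ 2) (x (Fin.last k))) :
    ∃ e : Sp (k + 1), ‖e‖ = 1 ∧ ∃ h : ℝ → ℝ, ∀ x, u x = h (inner ℝ e x) := by
  let C : Sp (k + 1) := ∑ i : Fin k, c i • ev i.castSucc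
  have hC : ∀ i : Fin k, C i.castSucc = c i := fun i => by simp [C, ev, Pi.single_apply]
  have hCl : C (Fin.last k) = 0 := by
    simp [C, ev, (Fin.castSucc_lt_last _).ne']
  obtain ⟨hsol, hvp⟩ := translate hu heq C
  have hlast : Fin.natAdd k (0 : Fin 1) = Fin.last k := Fin.ext (by simp)
  have hS := symm_relation (k := k) (m := 1) (hsol.reg.differentiable two_ne_zero)
    (fun x y hr hz => by
      show u (x + C) = u (y + C)
      have h1 := hz 0
      rw [hlast] at h1
      rw [hU, hU]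
      simp only [PiLp.add_apply, hC, hCl, add_zero, add_sub_cancel_right]
      rw [h1]
      congr 1)
  have h0 := transversal_zero_one (l := Fin.last k) hf hsol (fun y => hb _)
    (fun y => by rw [hvp]; exact hpos _) hS hk hk5
  refine one_dim_of_gradient (hu.differentiable two_ne_zero) (E := ev (Fin.last k))
    (φ := pd (Fin.last k) u) (by simp [ev]) fun x j => ?_
  cases j using Fin.lastCases with
  | last => simp [ev]
  | cast i =>
    have := h0 (x - C) i
    rw [hvp, sub_add_cancel] at this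
    rw [show pd i.castSucc u x = 0 from this]
    simp [ev, (Fin.castSucc_lt_last i).ne]

/-- Dimension four, invariance under rotations of one transversal plane. -/
theorem one_dim_plane_symmetric (hf : ContDiff ℝ 1 f) {u : Sp (2 + 2) → ℝ} (hu : ContDiff ℝ 2 u)
    (heq : ∀ x, Laplacian.laplacian u x = f (u x)) (hb : ∀ x, |u x| ≤ 1)
    (hpos : ∀ x, 0 < pd (Fin.natAdd 2 1) u x) (c₀ c₁ : ℝ) (U : ℝ → ℝ → ℝ → ℝ)
    (hU : ∀ x, u x = U ((x (Fin.castAdd 2 0) - c₀) ^ 2 + (x (Fin.castAdd 2 1) - c₁) ^ 2)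
      (x (Fin.natAdd 2 0)) (x (Fin.natAdd 2 1))) :
    ∃ e : Sp (2 + 2), ‖e‖ = 1 ∧ ∃ h : ℝ → ℝ, ∀ x, u x = h (inner ℝ e x) := by
  let C : Sp (2 + 2) := c₀ • ev (Fin.castAdd 2 0) + c₁ • ev (Fin.castAdd 2 1)
  obtain ⟨hsol, hvp⟩ := translate hu heq C
  have hS := symm_relation (k := 2) (m := 2) (hsol.reg.differentiable two_ne_zero)
    (fun x y hr hz => by
      show u (x + C) = u (y + C)
      have a := hz 0
      have b := hz 1
      simp only [rsq, Fin.sum_univ_two] at hr
      rw [hU, hU]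
      simp [C, ev, Fin.ext_iff] at a b hr ⊢
      rw [a, b, hr])
  have h0 := transversal_zero_two (l := Fin.natAdd 2 1) hf hsol (fun y => hb _)
    (fun y => by rw [hvp]; exact hpos _) hS
  have h0' : ∀ x i, pd (Fin.castAdd 2 i) u x = 0 := fun x i => by
    have := h0 (x - C) i
    rwa [hvp, sub_add_cancel] at this
  obtain ⟨a, ha⟩ := planar_gradient hf ⟨hu, fun x => by rw [← laplacian_eq_sum hu, heq]⟩ hb hpos h0'
  refine one_dim_of_gradient (hu.differentiable two_ne_zero)
    (E := a • ev (Fin.natAdd 2 0) + ev (Fin.natAdd 2 1)) (φ := pd (Fin.natAdd 2 1) u) ?_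
    fun x j => ?_
  · intro h
    have := congrArg (fun z : Sp (2 + 2) => z (Fin.natAdd 2 1)) h
    simp [ev, Fin.ext_iff] at this
  · induction j using Fin.addCases with
    | left i =>
      rw [h0']
      fin_cases i <;> simp [ev, Fin.ext_iff]
    | right i =>
      fin_cases i
      · refine (ha x).trans ?_
        simp [ev, Fin.ext_iff, mul_comm]
      · simp [ev, Fin.ext_iff]

end Vale.Agent.P134
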