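import Vale.Agent.P134.Cutoff

/-!
# P134: the transversal gradient of a rotationally symmetric monotone solution vanishes, and
monotone solutions depending on two variables only are one-dimensional
-/

namespace Vale.Agent.P134

open MeasureTheory Filter Topology Finset

variable {k m : ℕ} {f : ℝ → ℝ}

theorem g2_zero_of_Qd {u : Sp (k + m) → ℝ} {l : Fin (k + m)} (hk : 2 ≤ k) {a : ℝ}
    {x : Sp (k + m)} (h : Qd u l a x = 0) (i : Fin k) : pd (Fin.castAdd m i) u x = 0 := by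
  have hp : 0 < 1 + rsq x := by linarith [rsq_nonneg x]
  have hW : 0 < W a (rsq x) ^ 2 := pow_pos (Real.rpow_pos_of_pos hp _) 2
  have hk' : (2 : ℝ) ≤ k := by exact_mod_cast hk
  have h1 : 0 ≤ ∑ i, ∑ j, dz u l i j x ^ 2 :=
    Finset.sum_nonneg fun _ _ => Finset.sum_nonneg fun _ _ => sq_nonneg _
  have h2 : 0 ≤ ((k : ℝ) - 1) * g2 u x / (1 + rsq x) ^ 2 :=
    div_nonneg (mul_nonneg (by linarith) (g2_nonneg x)) (sq_nonneg _)
  have h3 : ((k : ℝ) - 1) * g2 u x / (1 + rsq x) ^ 2 = 0 := by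
    rcases mul_eq_zero.1 h with h | h <;> linarith
  have hk0 : (k : ℝ) - 1 ≠ 0 := fun h => by linarith
  have h4 : g2 u x = 0 := by simpa [hp.ne', hk0] using h3
  simpa using (Finset.sum_eq_zero_iff_of_nonneg fun i _ => sq_nonneg _).1 h4 i (Finset.mem_univ i)

/-- Vanishing of the transversal gradient, from a family of cut-offs in `z`. -/
theorem transversal_zero {u : Sp (k + m) → ℝ} {l : Fin (k + m)} (hf : ContDiff ℝ 1 f)
    (hu : IsSol f u) (hb : ∀ x, |u x| ≤ 1) (hpos : ∀ x, 0 < pd l u x)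
    (hS : ∀ x (i j : Fin k), x (Fin.castAdd m i) * pd (Fin.castAdd m j) u x
      = x (Fin.castAdd m j) * pd (Fin.castAdd m i) u x)
    (hk : 2 ≤ k) {d : ℕ} (hd : d + 2 = k + m) (hm : 0 < m)
    (ha : ((d : ℝ) / 2) ^ 2 ≤ (k : ℝ) - 1) (G G' : ℕ → ℝ → ℝ) (A : ℕ → ℝ)
    (hA : Tendsto A atTop atTop) (hGd : ∀ I r, HasDerivAt (G I) (G' I r) r)
    (hGc : ∀ I, Continuous (G' I))
    (hG : ∀ I r, 0 ≤ r → 0 ≤ G I r ∧ G I r ≤ 1)
    (hG0 : ∀ I r, 4 * (4 : ℝ) ^ I < r → G I r = 0 ∧ G' I r = 0)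
    (hGA : ∀ I, 1 ≤ I → A I ≤ 2 ^ I ∧ (∀ x : Sp (k + m), ‖x‖ ≤ A I → G I (ssq x) = 1) ∧
      ∀ x : Sp (k + m), G' I (ssq x) ≠ 0 → A I ≤ ‖x‖)
    (D : ℕ → ℝ) (e : ℕ → ℕ → ℝ) (N : ℕ → ℕ) (he : ∀ I i, 0 ≤ e I i)
    (hGe : ∀ I, 1 ≤ I → ∀ r, 0 ≤ r →
      4 * r * G' I r ^ 2 ≤ ∑ i ∈ Finset.range (N I), if r ≤ 4 ^ i then e I i else 0)
    (hD : ∀ p I, 1 ≤ I →
      (∑ j ∈ Finset.range (p + I + 1 + 1), (((2 : ℝ) ^ d)⁻¹ * 2 ^ k) ^ j)
        * (∑ i ∈ Finset.range (N I), e I i * (2 ^ m) ^ i) ≤ D p)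
    (x : Sp (k + m)) (i : Fin k) : pd (Fin.castAdd m i) u x = 0 := by
  obtain ⟨B, hB0, hB⟩ := exists_th_bound
  obtain ⟨C, hC0, hC⟩ := box_energy hu hf.continuous hb
  have hk1 : 1 ≤ k := by omega
  set S := fun p I : ℕ => (2 : ℝ) ^ (p + I) with hSdef
  have hS1 : ∀ p I, 1 ≤ S p I := fun p I => one_le_pow₀ one_le_two
  have hS0 : ∀ p I, 0 < S p I := fun p I => by positivity
  have h4S : ∀ p I, 4 * S p I ^ 2 = (4 : ℝ) ^ (p + I + 1) := fun p I => by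
    rw [hSdef, ← pow_mul, mul_comm (p + I) 2, pow_mul]
    norm_num [pow_succ]
    ring
  have hH : ∀ p I r, 0 ≤ r → 0 ≤ sc (S p I) r ∧ sc (S p I) r ≤ 1 ∧
      ((4 : ℝ) ^ (p + I + 1) < r → sc (S p I) r = 0) := fun p I r hr =>
    have h := sc_facts (hS0 p I) hr
    ⟨h.1, h.2.1, fun hlt => h.2.2.2 (by rw [h4S]; exact hlt.le)⟩
  have key : ∀ p I, 1 ≤ I → ∀ c : ℝ, 0 < c →
      Integrable (fun x : Sp (k + m) =>
        (sc (S p I) (rsq x) * G I (ssq x)) ^ 2 * Qd u l ((d : ℝ) / 2) x) ∧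
      ∫ x, (sc (S p I) (rsq x) * G I (ssq x)) ^ 2 * Qd u l ((d : ℝ) / 2) x
        ≤ (2 * d * B + 16 * B ^ 2) * (2 ^ k * 2 ^ m) * C * (((2 : ℝ) ^ p)⁻¹) ^ m
          + c⁻¹ * (2 ^ d * C * D p)
          + c * ∫ x, {y : Sp (k + m) | A I ≤ ‖y‖}.indicator
              (fun y => (sc (S p I) (rsq y) * G I (ssq y)) ^ 2 * Qd u l ((d : ℝ) / 2) y) x := by
    intro p I hI c hc
    obtain ⟨-, -, i3, hle⟩ := key_inequality (H := sc (S p I)) (H' := sc' (S p I))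
      (R := 4 * S p I ^ 2 + 4 * (4 : ℝ) ^ I + 1) (A := A I) hf hu hpos hS ha
      (sc_hasDerivAt _) (((th.contDiff (n := 1)).continuous_deriv le_rfl).comp
        (continuous_id.div_const _) |>.div_const _)
      (fun r hr => ⟨(hH p I r hr).1, (hH p I r hr).2.1⟩) (hGd I) (hGc I)
      (fun r hr => by
        have hr0 : 0 ≤ r := by nlinarith [sq_nonneg (S p I), pow_pos (by norm_num : (0:ℝ) < 4) I]
        refine ⟨(sc_facts (hS0 p I) hr0).2.2.2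
          (by nlinarith [pow_pos (by norm_num : (0:ℝ) < 4) I]), ?_⟩
        by_contra hne
        nlinarith [((sc'_bound (hS0 p I) hr0 hB).2 hne).2, pow_pos (by norm_num : (0:ℝ) < 4) I])
      (fun r hr => hG0 I r (by nlinarith [sq_nonneg (S p I)])) hc (hGA I hI).2.2
    refine ⟨i3, hle.trans (add_le_add (add_le_add ?_ (mul_le_mul_of_nonneg_left ?_
      (inv_nonneg.2 hc.le))) le_rfl)⟩
    · refine (psi_bound hu hC hB d hd (hS1 p I) (one_le_pow₀ one_le_two (n := I)) fun r hr =>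
        ⟨(hG I r hr).1, (hG I r hr).2, fun h => (hG0 I r (by
          rw [← pow_mul, mul_comm I 2, pow_mul] at h
          norm_num at h ⊢
          linarith)).1⟩).trans (le_of_eq ?_)
      simp only [hSdef, pow_add]
      field_simp
    · refine (chi_bound hu hC d (p + I + 1) (N I) (he I) (hH p I) (hGe I hI)).trans ?_
      rw [mul_assoc ((2 : ℝ) ^ d * C)]
      exact mul_le_mul_of_nonneg_left (hD p I hI) (by positivity)
  refine g2_zero_of_Qd (l := l) (a := (d : ℝ) / 2) hk (vanish (Qd_continuous hu.reg hpos _)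
    (fun y => Qd_nonneg hk1 _ y) (fun p I y => (sc (S p I) (rsq y) * G I (ssq y)) ^ 2) A hA
    (fun p I y hI => ?_) (fun p I => ?_) (fun p I hI => (key p I hI 1 one_pos).1)
    (fun p => (2 * d * B + 16 * B ^ 2) * (2 ^ k * 2 ^ m) * C * (((2 : ℝ) ^ p)⁻¹) ^ m)
    (fun p => 2 ^ d * C * D p) ?_ (fun p I hI c hc => (key p I hI c hc).2) x) i
  · obtain ⟨a0, a1, -⟩ := hH p I _ (rsq_nonneg y)
    obtain ⟨b0, b1⟩ := hG I _ (ssq_nonneg y)
    refine ⟨sq_nonneg _, pow_le_one₀ (mul_nonneg a0 b0) (mul_le_one₀ a1 b0 b1), fun hy => ?_⟩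
    obtain ⟨h1, h2, -⟩ := hGA I hI
    have : rsq y ≤ S p I ^ 2 := by
      have h3 : ‖y‖ ≤ S p I :=
        (hy.trans h1).trans (pow_le_pow_right₀ one_le_two (Nat.le_add_left I p))
      nlinarith [norm_sq_eq y, ssq_nonneg y, pow_le_pow_left₀ (norm_nonneg y) h3 2]
    rw [(sc_facts (hS0 p I) (rsq_nonneg y)).2.2.1 this, h2 y hy]
    norm_num
  · refine ⟨Real.sqrt (4 * S p I ^ 2 + 4 * (4 : ℝ) ^ I), fun y hy => ?_⟩
    have := pow_lt_pow_left₀ hy (Real.sqrt_nonneg _) two_ne_zero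
    rw [Real.sq_sqrt (by positivity), norm_sq_eq] at this
    by_cases h : 4 * S p I ^ 2 ≤ rsq y
    · simp [(sc_facts (hS0 p I) (rsq_nonneg y)).2.2.2 h]
    · simp [(hG0 I (ssq y) (by linarith)).1]
  · have := (tendsto_pow_atTop_nhds_zero_of_lt_one (r := (2 : ℝ)⁻¹) (by norm_num) (by norm_num))
    have h2 := ((this.pow m).const_mul ((2 * d * B + 16 * B ^ 2) * (2 ^ k * 2 ^ m) * C))
    simpa [inv_pow, zero_pow hm.ne'] using h2

/-- The case of one longitudinal variable. -/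
theorem transversal_zero_one {u : Sp (k + 1) → ℝ} {l : Fin (k + 1)} (hf : ContDiff ℝ 1 f)
    (hu : IsSol f u) (hb : ∀ x, |u x| ≤ 1) (hpos : ∀ x, 0 < pd l u x)
    (hS : ∀ x (i j : Fin k), x (Fin.castAdd 1 i) * pd (Fin.castAdd 1 j) u x
      = x (Fin.castAdd 1 j) * pd (Fin.castAdd 1 i) u x)
    (hk : 2 ≤ k) (hk5 : k ≤ 5) (x : Sp (k + 1)) (i : Fin k) : pd (Fin.castAdd 1 i) u x = 0 := by
  obtain ⟨d, rfl⟩ : ∃ d, k = d + 1 := ⟨k - 1, by omega⟩
  obtain ⟨B, hB0, hB⟩ := exists_th_bound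
  have hd4 : (d : ℝ) ≤ 4 := by exact_mod_cast (show d ≤ 4 by omega)
  have hT : ∀ I : ℕ, (0 : ℝ) < 2 ^ I := fun I => by positivity
  have h4 : ∀ I : ℕ, ((2 : ℝ) ^ I) ^ 2 = 4 ^ I := fun I => by
    rw [← pow_mul, mul_comm, pow_mul]; norm_num
  refine transversal_zero hf hu hb hpos hS hk (d := d) (by omega) one_pos
    (by push_cast; nlinarith [show (0 : ℝ) ≤ d by positivity]) (fun I => sc (2 ^ I))
    (fun I => sc' (2 ^ I)) (fun I => 2 ^ I) (tendsto_pow_atTop_atTop_of_one_lt one_lt_two)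
    (fun I => sc_hasDerivAt _) (fun I => ((th.contDiff (n := 1)).continuous_deriv le_rfl).comp
      (continuous_id.div_const _) |>.div_const _)
    (fun I r hr => ⟨(sc_facts (hT I) hr).1, (sc_facts (hT I) hr).2.1⟩) (fun I r hr => ?_)
    (fun I _ => ⟨le_rfl, fun y hy => ?_, fun y hy => ?_⟩)
    (fun p => 2 ^ p * (128 * B ^ 2)) (fun I i => if i = I + 1 then 16 * B ^ 2 / 4 ^ I else 0)
    (fun I => I + 2) (fun I i => ?_) (fun I _ r hr => ?_) (fun p I _ => ?_) x i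
  · have hr0 : 0 ≤ r := by linarith [pow_pos (by norm_num : (0:ℝ) < 4) I]
    refine ⟨(sc_facts (hT I) hr0).2.2.2 (by rw [h4]; linarith), ?_⟩
    by_contra hne
    have := ((sc'_bound (hT I) hr0 hB).2 hne).2
    rw [h4] at this
    linarith
  · exact (sc_facts (hT I) (ssq_nonneg y)).2.2.1 (by
      nlinarith [norm_sq_eq y, rsq_nonneg y, pow_le_pow_left₀ (norm_nonneg y) hy 2])
  · have := ((sc'_bound (hT I) (ssq_nonneg y) hB).2 hy).1
    exact (sq_le_sq₀ (hT I).le (norm_nonneg y)).1 (by linarith [norm_sq_eq y, rsq_nonneg y])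
  · split_ifs <;> positivity
  · rw [Finset.sum_range_succ]
    have h0 : ∀ i ∈ Finset.range (I + 1), (if r ≤ (4 : ℝ) ^ i then
        (if i = I + 1 then 16 * B ^ 2 / 4 ^ I else 0) else (0 : ℝ)) = 0 := fun i hi => by
      simp [(Finset.mem_range.1 hi).ne]
    rw [Finset.sum_eq_zero h0, zero_add]
    simp only [if_true]
    obtain ⟨c1, c2⟩ := sc'_bound (hT I) hr hB
    by_cases hne : sc' (2 ^ I) r = 0
    · rw [hne]
      split_ifs <;> simp
      positivity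
    · have hle := (c2 hne).2
      rw [h4] at hle c1
      rw [if_pos (by rw [pow_succ]; linarith)]
      calc 4 * r * sc' (2 ^ I) r ^ 2 ≤ 4 * (4 * 4 ^ I) * (B / 4 ^ I) ^ 2 :=
            mul_le_mul (by linarith) (sq_le_sq' (abs_le.1 c1).1 (abs_le.1 c1).2) (sq_nonneg _)
              (by positivity)
        _ = _ := by field_simp; ring
  · have e1 : ((2 : ℝ) ^ d)⁻¹ * 2 ^ (d + 1) = 2 := by
      rw [pow_succ]
      field_simp
    rw [e1, geom_sum_eq (by norm_num)]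
    have e2 : ∑ i ∈ Finset.range (I + 2),
        (if i = I + 1 then 16 * B ^ 2 / 4 ^ I else 0) * ((2 : ℝ) ^ 1) ^ i
        = 16 * B ^ 2 / 4 ^ I * 2 ^ (I + 1) := by
      simp [ite_mul]
    rw [e2]
    have e3 : (4 : ℝ) ^ I = 2 ^ I * 2 ^ I := by rw [← mul_pow]; norm_num
    rw [e3]
    calc ((2 : ℝ) ^ (p + I + 1 + 1) - 1) / (2 - 1) * (16 * B ^ 2 / (2 ^ I * 2 ^ I) * 2 ^ (I + 1))
        ≤ 2 ^ (p + I + 1 + 1) * (16 * B ^ 2 / (2 ^ I * 2 ^ I) * 2 ^ (I + 1)) :=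
          mul_le_mul_of_nonneg_right (by norm_num) (by positivity)
      _ = _ := by
          simp only [pow_add, pow_one]
          field_simp
          ring

theorem lg_scale_tendsto : Tendsto (fun I : ℕ => Real.sqrt (Real.sqrt (2 ^ I / 2))) atTop atTop :=
  Real.tendsto_sqrt_atTop.comp (Real.tendsto_sqrt_atTop.comp
    ((tendsto_pow_atTop_atTop_of_one_lt one_lt_two).atTop_div_const two_pos))

theorem lg_scale {I : ℕ} (hI : 1 ≤ I) (x : Sp (k + m)) :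
    Real.sqrt (Real.sqrt (2 ^ I / 2)) ≤ 2 ^ I ∧
    (‖x‖ ≤ Real.sqrt (Real.sqrt (2 ^ I / 2)) → lg I (ssq x) = 1) ∧
    (lg' I (ssq x) ≠ 0 → Real.sqrt (Real.sqrt (2 ^ I / 2)) ≤ ‖x‖) := by
  obtain ⟨B, -, hB⟩ := exists_th_bound
  have h2 : (2 : ℝ) ≤ 2 ^ I := by simpa using pow_le_pow_right₀ (one_le_two (α := ℝ)) hI
  have hs : Real.sqrt (2 ^ I / 2) ^ 2 = 2 ^ I / 2 := Real.sq_sqrt (by positivity)
  set a := Real.sqrt (2 ^ I / 2) with ha
  have ha0 : 0 ≤ a := Real.sqrt_nonneg _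
  have hq : Real.sqrt a ^ 2 = a := Real.sq_sqrt ha0
  refine ⟨?_, fun hx => lg_eq_one ?_, fun hne => ?_⟩
  · nlinarith [sq_nonneg (a - 1), sq_nonneg (Real.sqrt a - 1)]
  · have : ssq x ≤ a := by
      nlinarith [norm_sq_eq x, rsq_nonneg x, pow_le_pow_left₀ (norm_nonneg x) hx 2]
    nlinarith [ssq_nonneg x]
  · obtain ⟨-, h3⟩ := lg'_support hB (ssq_nonneg x) hne
    have : a ≤ ssq x := (sq_le_sq₀ ha0 (ssq_nonneg x)).1 (by linarith)
    exact (sq_le_sq₀ (Real.sqrt_nonneg a) (norm_nonneg x)).1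
      (by linarith [norm_sq_eq x, rsq_nonneg x])

theorem lg_ne_zero_le {I : ℕ} {r : ℝ} (hr : 4 * (4 : ℝ) ^ I < r) :
    lg I r = 0 ∧ lg' I r = 0 := by
  obtain ⟨B, -, hB⟩ := exists_th_bound
  have hp := pow_pos (by norm_num : (0 : ℝ) < 4) I
  refine ⟨lg_eq_zero (by linarith), ?_⟩
  by_contra hne
  linarith [(lg'_support hB (by linarith) hne).1]

/-- The case of two transversal and two longitudinal variables. -/
theorem transversal_zero_two {u : Sp (2 + 2) → ℝ} {l : Fin (2 + 2)} (hf : ContDiff ℝ 1 f)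
    (hu : IsSol f u) (hb : ∀ x, |u x| ≤ 1) (hpos : ∀ x, 0 < pd l u x)
    (hS : ∀ x (i j : Fin 2), x (Fin.castAdd 2 i) * pd (Fin.castAdd 2 j) u x
      = x (Fin.castAdd 2 j) * pd (Fin.castAdd 2 i) u x)
    (x : Sp (2 + 2)) (i : Fin 2) : pd (Fin.castAdd 2 i) u x = 0 := by
  obtain ⟨B, hB0, hB⟩ := exists_th_bound
  refine transversal_zero hf hu hb hpos hS le_rfl (d := 2) rfl two_pos (by norm_num) lg lg'
    (fun I => Real.sqrt (Real.sqrt (2 ^ I / 2))) lg_scale_tendsto lg_hasDerivAt lg'_continuous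
    (fun I r _ => ⟨(th_facts _).1, (th_facts _).2.1⟩) (fun I r hr => lg_ne_zero_le hr)
    (fun I hI => ⟨(lg_scale (k := 2) (m := 2) hI 0).1, fun y => (lg_scale hI y).2.1,
      fun y => (lg_scale hI y).2.2⟩)
    (fun p => 2 * ((p : ℝ) + 3) * (2048 * B ^ 2))
    (fun I i => 2048 * B ^ 2 / (I : ℝ) ^ 2 * ((4 : ℝ)⁻¹) ^ i) (fun I => I + 1)
    (fun I i => by positivity) (fun I hI r hr => lg'_bound hB hI hr) (fun p I hI => ?_) x i
  have e1 : ((2 : ℝ) ^ 2)⁻¹ * 2 ^ 2 = 1 := by norm_num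
  have e2 : ∀ i : ℕ, 2048 * B ^ 2 / (I : ℝ) ^ 2 * ((4 : ℝ)⁻¹) ^ i * ((2 ^ 2) ^ i)
      = 2048 * B ^ 2 / (I : ℝ) ^ 2 := fun i => by
    rw [mul_assoc, ← mul_pow]
    norm_num
  simp only [e1, one_pow, e2, Finset.sum_const, Finset.card_range, nsmul_eq_mul, mul_one]
  have hI1 : (1 : ℝ) ≤ I := by exact_mod_cast hI
  push_cast
  rw [show ((p : ℝ) + I + 1 + 1) * (((I : ℝ) + 1) * (2048 * B ^ 2 / (I : ℝ) ^ 2))
      = ((p : ℝ) + I + 2) * ((I : ℝ) + 1) / (I : ℝ) ^ 2 * (2048 * B ^ 2) by ring]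
  refine mul_le_mul_of_nonneg_right ?_ (by positivity)
  rw [div_le_iff₀ (by positivity)]
  calc ((p : ℝ) + I + 2) * ((I : ℝ) + 1) ≤ (((p : ℝ) + 3) * I) * (2 * I) :=
        mul_le_mul (by nlinarith [show (0 : ℝ) ≤ p by positivity]) (by linarith) (by positivity)
          (by positivity)
    _ = _ := by ring

end Vale.Agent.P134
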